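import Mathlib
import Vale.Agent.P254.U.Orth

/-! Moments of order `p`, the functional `Hp` and the gauge of a down-closed body. -/

namespace Vale.P254.Min

open MeasureTheory Set Vale.P254.U
open scoped Pointwise

variable {n : ℕ}

/-- The moment of order `p`. -/
noncomputable def emom (p : ℝ) (K : Set (Fin n → ℝ)) (j : Fin n) : ℝ := ∫ x in K, x j ^ p

/-- The functional. -/
noncomputable def Hp (p : ℝ) (K : Set (Fin n → ℝ)) : ℝ :=
  (n + p) * Real.log (volume.real K) - ∑ j, Real.log (emom p K j)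

/-- The weights. -/
noncomputable def wt (p : ℝ) (K : Set (Fin n → ℝ)) (j : Fin n) : ℝ := volume.real K / emom p K j

/-- The first variation density. -/
noncomputable def sden (p : ℝ) (K : Set (Fin n → ℝ)) (x : Fin n → ℝ) : ℝ :=
  ∑ j, wt p K j * x j ^ p

theorem continuous_rpow_coord {p : ℝ} (hp : 0 ≤ p) (j : Fin n) :
    Continuous fun x : Fin n → ℝ => x j ^ p :=
  (continuous_apply j).rpow_const fun _ => Or.inr hp

theorem continuous_sden {p : ℝ} (hp : 0 ≤ p) (K : Set (Fin n → ℝ)) : Continuous (sden p K) :=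
  continuous_finsetSum _ fun j _ => continuous_const.mul (continuous_rpow_coord hp j)

theorem sden_smul {p : ℝ} (K : Set (Fin n → ℝ)) {t : ℝ} (ht : 0 ≤ t) {x : Fin n → ℝ}
    (hx : 0 ≤ x) : sden p K (t • x) = t ^ p * sden p K x := by
  simp only [sden, Finset.mul_sum, Pi.smul_apply, smul_eq_mul]
  refine Finset.sum_congr rfl fun j _ => ?_
  rw [Real.mul_rpow ht (hx j)]
  ring

/-- The symmetrisation of a down-closed body. -/
def symm (K : Set (Fin n → ℝ)) : Set (Fin n → ℝ) := {x | |x| ∈ K}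

/-- The gauge. -/
noncomputable def gam (K : Set (Fin n → ℝ)) (x : Fin n → ℝ) : ℝ := gauge (symm K) x

/-- A set invariant under positive scalars. -/
def IsCone (Q : Set (Fin n → ℝ)) : Prop := ∀ x ∈ Q, ∀ t : ℝ, 0 < t → t • x ∈ Q

theorem IsCone.smul_mem_iff {Q : Set (Fin n → ℝ)} (hQ : IsCone Q) {t : ℝ} (ht : 0 < t)
    {x : Fin n → ℝ} : t • x ∈ Q ↔ x ∈ Q := by
  refine ⟨fun h => ?_, fun h => hQ x h t ht⟩
  have := hQ _ h t⁻¹ (inv_pos.2 ht)
  rwa [inv_smul_smul₀ ht.ne'] at this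

end Vale.P254.Min

namespace Vale.P254.U.OrthBody

open MeasureTheory Set Vale.P254.Min
open scoped Pointwise

variable {n : ℕ} {K : Set (Fin n → ℝ)}

theorem zero_mem (h : OrthBody K) : (0 : Fin n → ℝ) ∈ K := by
  obtain ⟨x, hx⟩ := h.int_ne
  exact h.down x (interior_subset hx) 0 le_rfl (h.nonneg x (interior_subset hx))

theorem emom_pos (h : OrthBody K) {p : ℝ} (hp : 0 ≤ p) (j : Fin n) : 0 < emom p K j := by
  have hi := h.integrableOn (continuous_rpow_coord hp j)
  rw [emom, setIntegral_pos_iff_support_of_nonneg_ae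
    (ae_restrict_of_forall_mem h.measurableSet fun x hx => Real.rpow_nonneg (h.nonneg x hx j) p) hi]
  refine ((isOpen_interior.inter ?_).measure_pos volume ?_).trans_le
    (measure_mono (s := interior K ∩ {x | 0 < x j}) ?_)
  · exact isOpen_lt continuous_const (continuous_apply j)
  · obtain ⟨δ, R, hδ, -, hin, -⟩ := h.exists_boxes
    have hmem : (fun _ : Fin n => δ / 2) ∈ interior (Icc (0 : Fin n → ℝ) fun _ => δ) := by
      rw [← pi_univ_Icc, interior_pi_set finite_univ]
      intro i _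
      show δ / 2 ∈ interior (Icc (0 : ℝ) δ)
      rw [interior_Icc]
      simp; linarith
    exact ⟨_, interior_mono hin hmem, show (0 : ℝ) < δ / 2 by linarith⟩
  · exact fun x hx => ⟨(Real.rpow_pos_of_pos hx.2 p).ne', interior_subset hx.1⟩

theorem wt_pos (h : OrthBody K) {p : ℝ} (hp : 0 ≤ p) (j : Fin n) : 0 < wt p K j :=
  div_pos h.volume_pos (h.emom_pos hp j)

theorem sden_nonneg (h : OrthBody K) {p : ℝ} (hp : 0 ≤ p) {x : Fin n → ℝ} (hx : 0 ≤ x) :
    0 ≤ sden p K x :=
  Finset.sum_nonneg fun j _ => mul_nonneg (h.wt_pos hp j).le (Real.rpow_nonneg (hx j) p)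

theorem integral_sden (h : OrthBody K) {p : ℝ} (hp : 0 ≤ p) :
    ∫ x in K, sden p K x = n * volume.real K := by
  simp only [sden]
  rw [integral_finsetSum _ fun j _ => (h.integrableOn (continuous_rpow_coord hp j)).const_mul _]
  have hterm : ∀ j, ∫ x in K, wt p K j * x j ^ p = volume.real K := fun j => by
    rw [integral_const_mul, wt]
    exact div_mul_cancel₀ _ (h.emom_pos hp j).ne'
  simp [hterm]

theorem mem_symm {x : Fin n → ℝ} (hx : 0 ≤ x) : x ∈ Min.symm K ↔ x ∈ K := by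
  simp [Min.symm, abs_of_nonneg hx]

theorem convex_symm (h : OrthBody K) : Convex ℝ (Min.symm K) := by
  intro x hx y hy a b ha hb hab
  refine h.down _ (h.convex hx hy ha hb hab) _ (abs_nonneg _) fun i => ?_
  simp only [Pi.abs_apply, Pi.add_apply, Pi.smul_apply, smul_eq_mul]
  refine (abs_add_le _ _).trans (add_le_add ?_ ?_) <;>
    rw [abs_mul, abs_of_nonneg (by assumption)]

theorem symm_nhds (h : OrthBody K) : Min.symm K ∈ nhds (0 : Fin n → ℝ) := by
  obtain ⟨δ, R, hδ, -, hin, -⟩ := h.exists_boxes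
  refine Filter.mem_of_superset (Metric.closedBall_mem_nhds 0 hδ) fun x hx => ?_
  rw [Metric.mem_closedBall, dist_zero_right] at hx
  exact hin ⟨abs_nonneg x, fun i => (norm_le_pi_norm x i).trans hx⟩

theorem isClosed_symm (h : OrthBody K) : IsClosed (Min.symm K) :=
  h.compact.isClosed.preimage (continuous_pi fun i => (continuous_apply i).abs)

theorem continuous_gam (h : OrthBody K) : Continuous (gam K) :=
  continuous_gauge h.convex_symm h.symm_nhds

theorem gam_nonneg (x : Fin n → ℝ) : 0 ≤ gam K x := gauge_nonneg x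

theorem gam_smul {t : ℝ} (ht : 0 ≤ t) (x : Fin n → ℝ) : gam K (t • x) = t * gam K x := by
  rw [gam, gauge_smul_of_nonneg ht]; rfl

theorem gam_le_one (h : OrthBody K) {x : Fin n → ℝ} (hx : 0 ≤ x) : gam K x ≤ 1 ↔ x ∈ K := by
  rw [gam, gauge_le_one_iff_mem_closure h.convex_symm h.symm_nhds, h.isClosed_symm.closure_eq,
    mem_symm hx]

theorem gam_le (h : OrthBody K) {x : Fin n → ℝ} (hx : 0 ≤ x) {t : ℝ} (ht : 0 < t) :
    gam K x ≤ t ↔ t⁻¹ • x ∈ K := by
  rw [← h.gam_le_one (smul_nonneg (inv_nonneg.2 ht.le) hx), gam_smul (inv_nonneg.2 ht.le),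
    inv_mul_le_one₀ ht]

theorem gam_pos (h : OrthBody K) {x : Fin n → ℝ} (hx : x ≠ 0) : 0 < gam K x := by
  refine (gauge_pos (absorbent_nhds_zero h.symm_nhds) ?_).2 hx
  obtain ⟨R, hR⟩ := h.compact.isBounded.exists_norm_le
  refine NormedSpace.isVonNBounded_iff ℝ |>.2 (Metric.isBounded_closedBall (x := 0) (r := R)
    |>.subset fun y hy => ?_)
  rw [Metric.mem_closedBall, dist_zero_right]
  have := hR _ hy
  refine (pi_norm_le_iff_of_nonneg ((norm_nonneg _).trans this)).2 fun i => ?_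
  refine le_trans ?_ ((norm_le_pi_norm |y| i).trans this)
  simp

theorem gam_mono (h : OrthBody K) {x y : Fin n → ℝ} (hx : 0 ≤ x) (hxy : x ≤ y) :
    gam K x ≤ gam K y := by
  refine le_of_forall_gt_imp_ge_of_dense fun t ht => ?_
  have ht0 : 0 < t := (gam_nonneg y).trans_lt ht
  rw [h.gam_le hx ht0]
  exact h.down _ ((h.gam_le (hx.trans hxy) ht0).1 ht.le) _ (smul_nonneg (inv_nonneg.2 ht0.le) hx)
    (smul_le_smul_of_nonneg_left hxy (inv_nonneg.2 ht0.le))

theorem gam_anti {L : Set (Fin n → ℝ)} (h : OrthBody K) (hKL : K ⊆ L) (x : Fin n → ℝ) :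
    gam L x ≤ gam K x :=
  gauge_mono (absorbent_nhds_zero h.symm_nhds) (fun y hy => show |y| ∈ L from hKL hy) x

theorem smul_set (h : OrthBody K) {a : ℝ} (ha : 0 < a) :
    a • K = {x | 0 ≤ x ∧ gam K x ≤ a} := by
  ext x
  rw [mem_smul_set_iff_inv_smul_mem₀ ha.ne']
  refine ⟨fun hx => ?_, fun hx => (h.gam_le hx.1 ha).1 hx.2⟩
  have h0 : 0 ≤ x := by
    have := smul_nonneg ha.le (h.nonneg _ hx)
    rwa [smul_inv_smul₀ ha.ne'] at this
  exact ⟨h0, (h.gam_le h0 ha).2 hx⟩

theorem cone_inter_smul (h : OrthBody K) {Q : Set (Fin n → ℝ)} (hQ : IsCone Q) {a : ℝ}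
    (ha : 0 < a) : Q ∩ {x | 0 ≤ x ∧ gam K x ≤ a} = a • (Q ∩ K) := by
  rw [← h.smul_set ha]
  ext x
  simp only [mem_inter_iff, mem_smul_set_iff_inv_smul_mem₀ ha.ne',
    hQ.smul_mem_iff (inv_pos.2 ha)]

theorem volume_cone (h : OrthBody K) {Q : Set (Fin n → ℝ)} (hQ : IsCone Q) {a : ℝ} (ha : 0 < a) :
    volume.real (Q ∩ {x | 0 ≤ x ∧ gam K x ≤ a}) = a ^ n * volume.real (Q ∩ K) := by
  rw [h.cone_inter_smul hQ ha, measureReal_def, Measure.addHaar_smul,
    Module.finrank_fin_fun, abs_of_nonneg (pow_nonneg ha.le n), ENNReal.toReal_mul,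
    ENNReal.toReal_ofReal (pow_nonneg ha.le n)]
  rfl

theorem inter_finite (h : OrthBody K) (Q : Set (Fin n → ℝ)) : volume (Q ∩ K) ≠ ⊤ :=
  (measure_mono inter_subset_right).trans_lt h.compact.measure_lt_top |>.ne

theorem measurableSet_gam_le (h : OrthBody K) (a : ℝ) :
    MeasurableSet {x : Fin n → ℝ | gam K x ≤ a} :=
  (isClosed_le h.continuous_gam continuous_const).measurableSet

/-- The part of a cone outside a contracted copy. -/
theorem volume_shell (h : OrthBody K) {Q : Set (Fin n → ℝ)} (hQ : IsCone Q)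
    {a : ℝ} (ha : 0 < a) (ha1 : a ≤ 1) :
    volume.real ((Q ∩ K) ∩ {x | a < gam K x}) = (1 - a ^ n) * volume.real (Q ∩ K) := by
  have e : Q ∩ {x | 0 ≤ x ∧ gam K x ≤ a} = (Q ∩ K) ∩ {x | gam K x ≤ a} := by
    ext x
    simp only [mem_inter_iff, mem_ofPred_eq]
    exact ⟨fun hx => ⟨⟨hx.1, (h.gam_le_one hx.2.1).1 (hx.2.2.trans ha1)⟩, hx.2.2⟩,
      fun hx => ⟨hx.1.1, h.nonneg _ hx.1.2, hx.2⟩⟩
  have e' : (Q ∩ K) ∩ {x | a < gam K x} = (Q ∩ K) \ {x | gam K x ≤ a} := by
    ext x; simp [not_le]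
  have := h.volume_cone hQ ha
  rw [e] at this
  have hs := measureReal_sdiff_add_inter (μ := volume) (s := Q ∩ K)
    (h.measurableSet_gam_le a) (h.inter_finite Q)
  rw [e']
  linarith

/-- Layer cake. -/
theorem integral_gam (h : OrthBody K) {Q : Set (Fin n → ℝ)} (hQ : IsCone Q)
    {p : ℝ} (hp : 0 < p) :
    ((n : ℝ) + p) * ∫ x in Q ∩ K, gam K x ^ p = n * volume.real (Q ∩ K) := by
  set μ := volume.restrict (Q ∩ K)
  have hint : Integrable (fun x => gam K x ^ p) μ :=
    (h.integrableOn (h.continuous_gam.rpow_const fun _ => Or.inr hp.le)).mono_set inter_subset_right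
  have hb : (fun x => gam K x ^ p) ≤ᵐ[μ] fun _ => (1 : ℝ) := by
    refine ae_mono (Measure.restrict_mono inter_subset_right le_rfl) ?_
    exact ae_restrict_of_forall_mem h.measurableSet fun x hx =>
      Real.rpow_le_one (gam_nonneg x) ((h.gam_le_one (h.nonneg x hx)).2 hx) hp.le
  rw [hint.integral_eq_integral_Ioc_meas_le
    (Filter.Eventually.of_forall fun x => Real.rpow_nonneg (gam_nonneg x) p) hb,
    ← intervalIntegral.integral_of_le zero_le_one]
  have heq : EqOn (fun t => μ.real {x | t ≤ gam K x ^ p})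
      (fun t => (1 - t ^ ((n : ℝ) / p)) * volume.real (Q ∩ K)) (Ioo 0 1) := by
    intro t ht
    have ht' : 0 < t ^ p⁻¹ := Real.rpow_pos_of_pos ht.1 _
    have e : {x : Fin n → ℝ | t ≤ gam K x ^ p} = {x | t ^ p⁻¹ ≤ gam K x} := by
      ext x; simp only [mem_ofPred_eq]
      exact (Real.rpow_inv_le_iff_of_pos ht.1.le (gam_nonneg x) hp).symm
    have hms : MeasurableSet {x : Fin n → ℝ | t ^ p⁻¹ ≤ gam K x} :=
      (isClosed_le continuous_const h.continuous_gam).measurableSet
    simp only [μ]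
    rw [e, measureReal_def, Measure.restrict_apply hms, ← measureReal_def, inter_comm]
    have hnull : volume ((Q ∩ K) ∩ {x | gam K x = t ^ p⁻¹}) = 0 := by
      have hsub : (Q ∩ K) ∩ {x | gam K x = t ^ p⁻¹} ⊆ (t ^ p⁻¹) • frontier (Min.symm K) := by
        rintro x ⟨-, hx⟩
        rw [mem_smul_set_iff_inv_smul_mem₀ ht'.ne',
          ← gauge_eq_one_iff_mem_frontier h.convex_symm h.symm_nhds,
          gauge_smul_of_nonneg (inv_nonneg.2 ht'.le)]
        show (t ^ p⁻¹)⁻¹ • gam K x = 1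
        rw [mem_ofPred_eq] at hx
        rw [hx, smul_eq_mul, inv_mul_cancel₀ ht'.ne']
      exact measure_mono_null hsub (by rw [Measure.addHaar_smul, h.convex_symm.addHaar_frontier volume, mul_zero])
    have e2 : volume.real ((Q ∩ K) ∩ {x | t ^ p⁻¹ ≤ gam K x})
        = volume.real ((Q ∩ K) ∩ {x | t ^ p⁻¹ < gam K x}) := by
      refine measureReal_congr ?_
      refine ae_eq_set.2 ⟨measure_mono_null ?_ hnull, ?_⟩
      · rintro x ⟨hx1, hx2⟩
        exact ⟨hx1.1, le_antisymm (not_lt.1 fun hc => hx2 ⟨hx1.1, hc⟩) hx1.2⟩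
      · convert measure_empty (μ := volume)
        refine sdiff_eq_empty.2 fun x hx => ⟨hx.1, ?_⟩
        exact le_of_lt (α := ℝ) hx.2
    rw [e2, h.volume_shell hQ ht' (Real.rpow_le_one ht.1.le ht.2.le (inv_nonneg.2 hp.le)),
      ← Real.rpow_natCast, ← Real.rpow_mul ht.1.le, inv_mul_eq_div]
  rw [intervalIntegral.integral_congr_Ioo_of_le zero_le_one heq, intervalIntegral.integral_mul_const,
    intervalIntegral.integral_sub intervalIntegrable_const
      (intervalIntegral.intervalIntegrable_rpow (Or.inl (by positivity))),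
    integral_rpow (Or.inl (by have : (0 : ℝ) ≤ n / p := by positivity
                              linarith))]
  simp only [intervalIntegral.integral_const, smul_eq_mul, Real.one_rpow]
  rw [Real.zero_rpow (by positivity)]
  field_simp
  ring

end Vale.P254.U.OrthBody
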