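import Mathlib
import Vale.Agent.P254.Min.Basic

/-! The first order conditions at a minimiser under cuts. -/

namespace Vale.P254.Min

open MeasureTheory Set Vale.P254.U Filter
open scoped Pointwise Topology

variable {n : ℕ}

/-- A minimiser of `Hp` under cuts. -/
structure IsMin (p : ℝ) (K : Set (Fin n → ℝ)) : Prop where
  body : OrthBody K
  pos : 0 < p
  lt_one : p < 1
  le_cut : ∀ L, OrthBody L → L ⊆ K → Hp p K ≤ Hp p L

/-- The excess of a cone. -/
noncomputable def Phi (p : ℝ) (K Q : Set (Fin n → ℝ)) : ℝ :=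
  ∫ x in Q ∩ K, (sden p K x - ((n : ℝ) + p) * gam K x ^ p)

theorem neg_log_one_sub_le {u : ℝ} (_hu0 : 0 ≤ u) (hu : u ≤ 1 / 2) :
    -Real.log (1 - u) ≤ u + 2 * u ^ 2 := by
  have h1 := Real.one_sub_inv_le_log_of_pos (show (0 : ℝ) < 1 - u by linarith)
  have h2 : (1 - u)⁻¹ ≤ 1 + u + 2 * u ^ 2 := by
    rw [inv_le_iff_one_le_mul₀ (by linarith)]
    nlinarith [mul_nonneg (sq_nonneg u) (show (0 : ℝ) ≤ 1 / 2 - u by linarith)]
  linarith

end Vale.P254.Min

namespace Vale.P254.U.OrthBody

open MeasureTheory Set Vale.P254.Min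
open scoped Pointwise

variable {n : ℕ} {K L : Set (Fin n → ℝ)}

theorem smul_body (h : OrthBody K) {a : ℝ} (ha : 0 < a) : OrthBody (a • K) := by
  refine ⟨h.compact.smul a, h.convex.smul a, ?_, ?_, ?_⟩
  · rintro _ ⟨x, hx, rfl⟩
    exact smul_nonneg ha.le (h.nonneg x hx)
  · rintro _ ⟨x, hx, rfl⟩ y hy0 hyx
    rw [mem_smul_set_iff_inv_smul_mem₀ ha.ne']
    refine h.down x hx _ (smul_nonneg (inv_nonneg.2 ha.le) hy0) ?_
    have := smul_le_smul_of_nonneg_left hyx (inv_nonneg.2 ha.le)
    rwa [inv_smul_smul₀ ha.ne'] at this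
  · rw [interior_smul₀ ha.ne']
    exact h.int_ne.smul_set

theorem inter_body (h : OrthBody K) (h' : OrthBody L) : OrthBody (K ∩ L) := by
  refine ⟨h.compact.inter_right h'.compact.isClosed, h.convex.inter h'.convex,
    fun x hx => h.nonneg x hx.1,
    fun x hx y hy hyx => ⟨h.down x hx.1 y hy hyx, h'.down x hx.2 y hy hyx⟩, ?_⟩
  obtain ⟨δ, R, hδ, -, hin, -⟩ := h.exists_boxes
  obtain ⟨δ', R', hδ', -, hin', -⟩ := h'.exists_boxes
  set t := min δ δ' with ht
  have htp : 0 < t := lt_min hδ hδ'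
  have hsub : Icc (0 : Fin n → ℝ) (fun _ => t) ⊆ K ∩ L := fun x hx =>
    ⟨hin ⟨hx.1, fun i => (hx.2 i).trans (min_le_left _ _)⟩,
      hin' ⟨hx.1, fun i => (hx.2 i).trans (min_le_right _ _)⟩⟩
  refine Set.Nonempty.mono (interior_mono hsub) ?_
  rw [← pi_univ_Icc, interior_pi_set finite_univ]
  refine univ_pi_nonempty_iff.2 fun i => ?_
  rw [interior_Icc]
  exact nonempty_Ioo.2 htp

theorem box_body {a : Fin n → ℝ} (ha : ∀ i, 0 < a i) : OrthBody (Icc (0 : Fin n → ℝ) a) := by
  refine ⟨isCompact_Icc, convex_Icc _ _, fun x hx => hx.1,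
    fun x hx y hy hyx => ⟨hy, hyx.trans hx.2⟩, ?_⟩
  rw [← pi_univ_Icc, interior_pi_set finite_univ]
  refine univ_pi_nonempty_iff.2 fun i => ?_
  rw [interior_Icc]
  exact nonempty_Ioo.2 (ha i)

theorem integral_sden_smul (h : OrthBody K) {p : ℝ} {Q : Set (Fin n → ℝ)}
    (hQ : IsCone Q) (hQm : MeasurableSet Q) {a : ℝ} (ha : 0 < a) :
    ∫ x in Q ∩ {x | 0 ≤ x ∧ gam K x ≤ a}, sden p K x
      = a ^ (n : ℝ) * a ^ p * ∫ x in Q ∩ K, sden p K x := by
  rw [h.cone_inter_smul hQ ha]
  have := Measure.setIntegral_comp_smul_of_pos volume (fun x => sden p K x) (Q ∩ K) ha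
  rw [Module.finrank_fin_fun, smul_eq_mul] at this
  have e : ∫ x in Q ∩ K, sden p K (a • x) = a ^ p * ∫ x in Q ∩ K, sden p K x := by
    rw [← integral_const_mul]
    exact setIntegral_congr_fun (hQm.inter h.measurableSet) fun x hx =>
      sden_smul K ha.le (h.nonneg x hx.2)
  rw [e] at this
  rw [Real.rpow_natCast, mul_assoc, this, ← mul_assoc, mul_inv_cancel₀ (pow_pos ha n).ne', one_mul]

theorem measurableSet_lt_gam (h : OrthBody K) (a : ℝ) :
    MeasurableSet {x : Fin n → ℝ | a < gam K x} :=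
  (isOpen_lt continuous_const h.continuous_gam).measurableSet

theorem integrableOn_gamp (h : OrthBody K) {p : ℝ} (hp : 0 ≤ p) (Q : Set (Fin n → ℝ)) :
    IntegrableOn (fun x => gam K x ^ p) (Q ∩ K) :=
  (h.integrableOn (h.continuous_gam.rpow_const fun _ => Or.inr hp)).mono_set inter_subset_right

theorem integrableOn_sden (h : OrthBody K) {p : ℝ} (hp : 0 ≤ p) (Q : Set (Fin n → ℝ)) :
    IntegrableOn (sden p K) (Q ∩ K) :=
  (h.integrableOn (continuous_sden hp K)).mono_set inter_subset_right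

theorem phi_eq (h : OrthBody K) {p : ℝ} (hp : 0 < p) {Q : Set (Fin n → ℝ)} (hQ : IsCone Q) :
    Phi p K Q = (∫ x in Q ∩ K, sden p K x) - n * volume.real (Q ∩ K) := by
  rw [Phi, integral_sub (h.integrableOn_sden hp.le Q) ((h.integrableOn_gamp hp.le Q).const_mul _),
    integral_const_mul, h.integral_gam hQ hp]

theorem phi_orth (h : OrthBody K) {p : ℝ} (hp : 0 < p) :
    Phi p K {x | 0 ≤ x} = 0 := by
  have e : ({x : Fin n → ℝ | 0 ≤ x}) ∩ K = K := inter_eq_right.2 fun x hx => h.nonneg x hx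
  have hc : IsCone {x : Fin n → ℝ | 0 ≤ x} := fun x (hx : 0 ≤ x) t ht => smul_nonneg ht.le hx
  rw [h.phi_eq hp hc, e, h.integral_sden hp.le, sub_self]

end Vale.P254.U.OrthBody

namespace Vale.P254.Min.IsMin

open MeasureTheory Set Vale.P254.U Filter
open scoped Pointwise Topology

variable {n : ℕ} {p : ℝ} {K : Set (Fin n → ℝ)}

/-- Every small cut has mean density at least `n + p`, up to a second order error. -/
theorem cut (h : IsMin p K) : ∃ C v₀ : ℝ, 0 ≤ C ∧ 0 < v₀ ∧ ∀ L, OrthBody L → L ⊆ K →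
    volume.real (K \ L) ≤ v₀ →
    ((n : ℝ) + p) * volume.real (K \ L)
      ≤ (∫ x in K \ L, sden p K x) + C * volume.real (K \ L) ^ 2 := by
  have hb := h.body
  have hp := h.pos.le
  obtain ⟨δ, R, hδ, hδR, -, hout⟩ := hb.exists_boxes
  set B := (R ^ p + 1) * (∑ j, (emom p K j)⁻¹) + 1 with hB
  have hsum : 0 ≤ ∑ j, (emom p K j)⁻¹ :=
    Finset.sum_nonneg fun j _ => (inv_pos.2 (hb.emom_pos hp j)).le
  have hR0 : 0 ≤ R := hδ.le.trans hδR
  have hRp : 0 ≤ R ^ p := Real.rpow_nonneg hR0 p
  have hV := hb.volume_pos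
  have hB0 : 0 < B := by positivity
  refine ⟨2 * volume.real K * n * B ^ 2, min (1 / (2 * B)) (volume.real K / 2), by positivity,
    lt_min (by positivity) (by positivity), fun L hL hLK hv => ?_⟩
  set V := volume.real K with hVdef
  set v := volume.real (K \ L) with hvdef
  have hv0 : 0 ≤ v := measureReal_nonneg
  have hv1 : v ≤ 1 / (2 * B) := hv.trans (min_le_left _ _)
  have hv2 : v ≤ V / 2 := hv.trans (min_le_right _ _)
  set r : Fin n → ℝ := fun j => ∫ x in K \ L, x j ^ p with hr
  have hr0 : ∀ j, 0 ≤ r j := fun j => setIntegral_nonneg (hb.measurableSet.diff hL.measurableSet)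
    fun x hx => Real.rpow_nonneg (hb.nonneg x hx.1 j) p
  have hrle : ∀ j, r j ≤ v * (R ^ p + 1) := fun j => by
    refine (setIntegral_mono_on ((hb.integrableOn (continuous_rpow_coord hp j)).mono_set
      sdiff_subset) (integrableOn_const (C := R ^ p + 1) ((measure_mono sdiff_subset).trans_lt
        hb.compact.measure_lt_top).ne) (hb.measurableSet.diff hL.measurableSet)
        fun x hx => ?_).trans_eq (by rw [setIntegral_const, smul_eq_mul])
    exact (Real.rpow_le_rpow (hb.nonneg x hx.1 j) ((hout hx.1).2 j) hp).trans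
      (le_add_of_nonneg_right zero_le_one)
  have hu : ∀ j, r j / emom p K j ≤ v * B := fun j => by
    calc r j / emom p K j ≤ v * (R ^ p + 1) * (emom p K j)⁻¹ :=
          mul_le_mul_of_nonneg_right (hrle j) (inv_pos.2 (hb.emom_pos hp j)).le
      _ ≤ v * ((R ^ p + 1) * ∑ i, (emom p K i)⁻¹) := by
          rw [mul_assoc]
          refine mul_le_mul_of_nonneg_left (mul_le_mul_of_nonneg_left ?_ (by positivity)) hv0
          exact Finset.single_le_sum (f := fun i => (emom p K i)⁻¹)
            (fun i _ => (inv_pos.2 (hb.emom_pos hp i)).le) (Finset.mem_univ j)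
      _ ≤ v * B := mul_le_mul_of_nonneg_left (by simp [hB]) hv0
  have huh : v * B ≤ 1 / 2 :=
    (mul_le_mul_of_nonneg_right hv1 hB0.le).trans_eq (by field_simp)
  have hsplit : ∀ g : (Fin n → ℝ) → ℝ, Continuous g →
      ∫ x in L, g x = (∫ x in K, g x) - ∫ x in K \ L, g x := fun g hg => by
    rw [setIntegral_sdiff hL.measurableSet (hb.integrableOn hg) hLK]; ring
  have hVL : volume.real L = V * (1 - v / V) := by
    have := hsplit (fun _ => 1) continuous_const
    simp only [setIntegral_const, smul_eq_mul, mul_one] at this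
    rw [mul_one_sub, mul_div_cancel₀ _ hV.ne', this]
  have heL : ∀ j, emom p L j = emom p K j * (1 - r j / emom p K j) := fun j => by
    rw [mul_one_sub, mul_div_cancel₀ _ (hb.emom_pos hp j).ne']
    exact hsplit _ (continuous_rpow_coord hp j)
  have hpos : ∀ j, 0 < 1 - r j / emom p K j := fun j => by linarith [hu j, huh]
  have hposV : 0 < 1 - v / V := by
    rw [sub_pos, div_lt_one hV]; linarith
  have hm := h.le_cut L hL hLK
  rw [Hp, Hp, hVL, Real.log_mul hV.ne' hposV.ne'] at hm
  simp only [heL, Real.log_mul (hb.emom_pos hp _).ne' (hpos _).ne', Finset.sum_add_distrib] at hm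
  have hl1 : Real.log (1 - v / V) ≤ -(v / V) := by
    have := Real.log_le_sub_one_of_pos hposV; linarith
  have hl2 : -∑ j, Real.log (1 - r j / emom p K j)
      ≤ (∑ j, r j / emom p K j) + n * (2 * (v * B) ^ 2) := by
    rw [← Finset.sum_neg_distrib]
    calc ∑ j, -Real.log (1 - r j / emom p K j)
        ≤ ∑ j, (r j / emom p K j + 2 * (v * B) ^ 2) := by
          refine Finset.sum_le_sum fun j _ => (neg_log_one_sub_le
            (div_nonneg (hr0 j) (hb.emom_pos hp j).le) ((hu j).trans huh)).trans ?_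
          have := pow_le_pow_left₀ (div_nonneg (hr0 j) (hb.emom_pos hp j).le) (hu j) 2
          linarith
      _ = _ := by simp [Finset.sum_add_distrib, mul_comm]
  have hS : ∫ x in K \ L, sden p K x = V * ∑ j, r j / emom p K j := by
    simp only [sden]
    rw [integral_finsetSum _ fun j _ =>
      (((hb.integrableOn (continuous_rpow_coord hp j)).mono_set sdiff_subset).const_mul _),
      Finset.mul_sum]
    refine Finset.sum_congr rfl fun j _ => ?_
    rw [integral_const_mul, wt]
    simp only [r]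
    rw [← hVdef]
    ring
  rw [hS]
  have hnp : (0 : ℝ) ≤ n + p := add_nonneg (Nat.cast_nonneg n) hp
  have hkey : ((n : ℝ) + p) * (v / V)
      ≤ (∑ j, r j / emom p K j) + n * (2 * (v * B) ^ 2) := by
    nlinarith [mul_le_mul_of_nonneg_left hl1 hnp]
  have := mul_le_mul_of_nonneg_left hkey hV.le
  rw [mul_left_comm, mul_div_cancel₀ _ hV.ne'] at this
  linarith

/-- The contact cone with a body containing the minimiser has nonnegative excess. -/
theorem phi_contact (h : IsMin p K) (hn : 1 ≤ n) {C : Set (Fin n → ℝ)} (hC : OrthBody C) (hKC : K ⊆ C) :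
    0 ≤ Phi p K {x | 0 ≤ x ∧ gam C x = gam K x} := by
  have hb := h.body
  have hp := h.pos
  obtain ⟨C₁, v₀, hC₁, hv₀, hcut⟩ := h.cut
  set Q : Set (Fin n → ℝ) := {x | 0 ≤ x ∧ gam C x = gam K x} with hQdef
  have hQ : IsCone Q := fun x hx t ht =>
    ⟨smul_nonneg ht.le hx.1, by rw [OrthBody.gam_smul ht.le, OrthBody.gam_smul ht.le, hx.2]⟩
  have hQm : MeasurableSet Q :=
    (isClosed_le continuous_const continuous_id).measurableSet.inter
      (isClosed_eq hC.continuous_gam hb.continuous_gam).measurableSet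
  set a : ℕ → ℝ := fun m => 1 - (1 : ℝ) / (m + 2) with ha
  have hd : ∀ m : ℕ, 0 < (1 : ℝ) / (m + 2) ∧ (1 : ℝ) / (m + 2) < 1 := fun m => by
    have : (0 : ℝ) ≤ m := Nat.cast_nonneg m
    exact ⟨by positivity, by rw [div_lt_one (by positivity)]; linarith⟩
  have ha0 : ∀ m, 0 < a m := fun m => by simp only [ha]; linarith [(hd m).2]
  have ha1 : ∀ m, a m ≤ 1 := fun m => by simp only [ha]; linarith [(hd m).1]
  set O : ℕ → Set (Fin n → ℝ) := fun m =>
    {x | 0 ≤ x ∧ a m * gam K x < gam C x} \ Q with hOdef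
  have hOc : ∀ m, IsCone (O m) := fun m x hx t ht => by
    refine ⟨⟨smul_nonneg ht.le hx.1.1, ?_⟩, fun hc => hx.2 ((hQ.smul_mem_iff ht).1 hc)⟩
    rw [OrthBody.gam_smul ht.le, OrthBody.gam_smul ht.le, mul_left_comm]
    exact mul_lt_mul_of_pos_left hx.1.2 ht
  have hOm : ∀ m, MeasurableSet (O m) := fun m =>
    ((isClosed_le continuous_const continuous_id).measurableSet.inter
      (isOpen_lt (hb.continuous_gam.const_mul _) hC.continuous_gam).measurableSet).diff hQm
  have hlim : Tendsto (fun m => volume.real (O m ∩ K)) atTop (𝓝 0) := by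
    have hanti : Antitone fun m => O m ∩ K := fun m k hmk x hx => by
      refine ⟨⟨⟨hx.1.1.1, lt_of_le_of_lt ?_ hx.1.1.2⟩, hx.1.2⟩, hx.2⟩
      refine mul_le_mul_of_nonneg_right ?_ (OrthBody.gam_nonneg x)
      simp only [ha]
      gcongr
    have hI : ⋂ m, O m ∩ K = ∅ := eq_empty_of_forall_notMem fun x hx => by
      simp only [mem_iInter] at hx
      have h0 := hx 0
      refine h0.1.2 ⟨h0.1.1.1, le_antisymm (hb.gam_anti hKC x) ?_⟩
      have ht : Tendsto (fun m : ℕ => a m * gam K x) atTop (𝓝 (gam K x)) := by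
        have : Tendsto a atTop (𝓝 1) := by
          have h2 : Tendsto (fun m : ℕ => (1 : ℝ) / (m + 2)) atTop (𝓝 0) := by
            refine squeeze_zero (fun m => (hd m).1.le) (fun m => ?_)
              tendsto_one_div_add_atTop_nhds_zero_nat
            gcongr; linarith
          simpa [ha] using h2.const_sub 1
        simpa using this.mul_const (gam K x)
      exact le_of_tendsto ht (Eventually.of_forall fun m => (hx m).1.1.2.le)
    have := tendsto_measure_iInter_atTop (μ := volume)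
      (fun m => ((hOm m).inter hb.measurableSet).nullMeasurableSet) hanti
      ⟨0, hb.inter_finite _⟩
    rw [hI, measure_empty] at this
    simpa [measureReal_def, Function.comp_def] using
      (ENNReal.tendsto_toReal ENNReal.zero_ne_top).comp this
  obtain ⟨T, hT⟩ : ∃ T, ∀ x ∈ K, sden p K x ≤ T := by
    obtain ⟨T, hT⟩ := hb.compact.exists_bound_of_continuousOn (continuous_sden hp.le K).continuousOn
    exact ⟨T, fun x hx => (le_abs_self _).trans (hT x hx)⟩
  set W := volume.real (Q ∩ K) with hW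
  set I := ∫ x in Q ∩ K, sden p K x with hI'
  set V := volume.real K with hV'
  have hmain : ∀ᶠ m : ℕ in atTop, ((n : ℝ) + p) * (n / (1 + n * (1 / ((m : ℝ) + 2)))) * W ≤
      ((n : ℝ) + p) * I + |T| * n * volume.real (O m ∩ K) +
        C₁ * (n * V) ^ 2 * (1 / ((m : ℝ) + 2)) := by
    have hsmall : ∀ᶠ m : ℕ in atTop, (n : ℝ) * V * (1 / ((m : ℝ) + 2)) ≤ v₀ := by
      have h2 : Tendsto (fun m : ℕ => (n : ℝ) * V * (1 / ((m : ℝ) + 2))) atTop (𝓝 0) := by
        have : Tendsto (fun m : ℕ => (1 : ℝ) / (m + 2)) atTop (𝓝 0) := by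
          refine squeeze_zero (fun m => (hd m).1.le) (fun m => ?_)
            tendsto_one_div_add_atTop_nhds_zero_nat
          gcongr; linarith
        simpa using this.const_mul ((n : ℝ) * V)
      exact h2.eventually_le_const hv₀
    filter_upwards [hsmall] with m hm
    set d : ℝ := 1 / ((m : ℝ) + 2) with hdd
    have ham : a m = 1 - d := rfl
    set L := K ∩ (a m) • C with hL
    have hLb : OrthBody L := hb.inter_body (hC.smul_body (ha0 m))
    set U := (Q ∩ K) ∩ {x | a m < gam K x} with hU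
    set X := (K \ L) \ U with hX
    have hpow : 1 - a m ^ n ≤ n * d := by
      have h1 := one_add_mul_le_pow (show (-2 : ℝ) ≤ -d by linarith [(hd m).2]) n
      rw [← sub_eq_add_neg] at h1
      rw [ham]; linarith
    have hout : ∀ x ∈ K \ L, a m < gam C x ∧ a m < gam K x := by
      rintro x ⟨hxK, hx⟩
      have h1 : a m < gam C x := not_le.1 fun hc => hx ⟨hxK, by
        rw [hC.smul_set (ha0 m)]; exact ⟨hb.nonneg x hxK, hc⟩⟩
      exact ⟨h1, h1.trans_le (hb.gam_anti hKC x)⟩
    have hUsub : U ⊆ K \ L := fun x hx => ⟨hx.1.2, fun hc => by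
      have h2 := hc.2
      rw [hC.smul_set (ha0 m)] at h2
      exact absurd h2.2 (not_le.2 (hx.1.1.2 ▸ hx.2))⟩
    have hXsub : X ⊆ (O m ∩ K) ∩ {x | a m < gam K x} := fun x hx => by
      have h0 := hb.nonneg x hx.1.1
      obtain ⟨h1, h3⟩ := hout x hx.1
      refine ⟨⟨⟨⟨h0, lt_of_le_of_lt ?_ h1⟩, fun hc => hx.2 ⟨⟨hc, hx.1.1⟩, h3⟩⟩, hx.1.1⟩, h3⟩
      exact mul_le_of_le_one_right (ha0 m).le ((hb.gam_le_one h0).2 hx.1.1)
    have hUm : MeasurableSet U := (hQm.inter hb.measurableSet).inter (hb.measurableSet_lt_gam _)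
    have hXm : MeasurableSet X := (hb.measurableSet.diff hLb.measurableSet).diff hUm
    have hdiff : K \ L = U ∪ X := (union_sdiff_cancel hUsub).symm
    have hdj : Disjoint U X := disjoint_sdiff_right
    have hKf : ∀ s, s ⊆ K → volume s ≠ ⊤ := fun s hs =>
      ((measure_mono hs).trans_lt hb.compact.measure_lt_top).ne
    have hUK : U ⊆ K := fun x hx => hx.1.2
    have hXK : X ⊆ K := fun x hx => hx.1.1
    have hv : volume.real (K \ L) = volume.real U + volume.real X := by
      rw [hdiff, measureReal_union hdj hXm (hKf U hUK) (hKf X hXK)]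
    have hUv : volume.real U = (1 - a m ^ n) * W := hb.volume_shell hQ (ha0 m) (ha1 m)
    have hXv : volume.real X ≤ (1 - a m ^ n) * volume.real (O m ∩ K) :=
      (measureReal_mono hXsub (hKf _ fun x hx => hx.1.2)).trans_eq
        (hb.volume_shell (hOc m) (ha0 m) (ha1 m))
    have hall : volume.real (K \ L) ≤ n * d * V := by
      have hc : IsCone {x : Fin n → ℝ | 0 ≤ x} := fun x (hx : 0 ≤ x) t ht => smul_nonneg ht.le hx
      have := hb.volume_shell hc (ha0 m) (ha1 m)
      rw [show ({x : Fin n → ℝ | 0 ≤ x}) ∩ K = K from inter_eq_right.2 fun x hx => hb.nonneg x hx]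
        at this
      calc volume.real (K \ L) ≤ volume.real (K ∩ {x | a m < gam K x}) := by
            exact measureReal_mono (fun x hx => ⟨hx.1, (hout x hx).2⟩) (hKf _ inter_subset_left)
        _ ≤ n * d * V := by
            rw [this]
            exact mul_le_mul_of_nonneg_right hpow measureReal_nonneg
    have hLv := hcut L hLb inter_subset_left (hall.trans (by linarith))
    have hiS : IntegrableOn (sden p K) K := hb.integrableOn (continuous_sden hp.le K)
    have hSU : ∫ x in U, sden p K x = (1 - a m ^ (n : ℝ) * a m ^ p) * I := by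
      have e1 : Q ∩ {x | 0 ≤ x ∧ gam K x ≤ a m} = (Q ∩ K) \ {x | a m < gam K x} := by
        ext x
        simp only [mem_inter_iff, mem_ofPred_eq, Set.mem_sdiff, not_lt]
        exact ⟨fun hx => ⟨⟨hx.1, (hb.gam_le_one hx.2.1).1 (hx.2.2.trans (ha1 m))⟩, hx.2.2⟩,
          fun hx => ⟨hx.1.1, hb.nonneg _ hx.1.2, hx.2⟩⟩
      have := hb.integral_sden_smul (p := p) hQ hQm (ha0 m)
      rw [e1] at this
      have hs := integral_inter_add_sdiff (hb.measurableSet_lt_gam (a m))
        (hb.integrableOn_sden hp.le Q)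
      rw [this] at hs
      linear_combination hs
    have hSX : ∫ x in X, sden p K x ≤ |T| * volume.real X := by
      refine (setIntegral_mono_on (hiS.mono_set hXK) (integrableOn_const (hKf X hXK)) hXm
        fun x hx => (hT x (hXK hx)).trans (le_abs_self T)).trans_eq ?_
      rw [setIntegral_const, smul_eq_mul, mul_comm]
    rw [hdiff, setIntegral_union hdj hXm (hiS.mono_set hUK) (hiS.mono_set hXK), ← hdiff,
      hSU] at hLv
    have hI0 : 0 ≤ I := setIntegral_nonneg (hQm.inter hb.measurableSet) fun x hx =>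
      hb.sden_nonneg hp.le (hb.nonneg x hx.2)
    have hrp : 1 - a m ^ (n : ℝ) * a m ^ p ≤ (n + p) * d := by
      rw [← Real.rpow_add (ha0 m)]
      have hn1 : (1 : ℝ) ≤ n := by exact_mod_cast hn
      have h1 := one_add_mul_self_le_rpow_one_add (show -1 ≤ -d by linarith [(hd m).2])
        (show (1 : ℝ) ≤ (n : ℝ) + p by linarith)
      rw [← sub_eq_add_neg] at h1
      rw [ham]; linarith
    have hlow : n / (1 + n * d) * d ≤ 1 - a m ^ n := by
      have hnd : (0 : ℝ) ≤ n * d := mul_nonneg (Nat.cast_nonneg n) (hd m).1.le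
      have h1 : a m ^ n * (1 + n * d) ≤ 1 := by
        calc a m ^ n * (1 + n * d) ≤ a m ^ n * (1 + d) ^ n :=
              mul_le_mul_of_nonneg_left
                (one_add_mul_le_pow (by linarith [(hd m).1]) n) (pow_nonneg (ha0 m).le n)
          _ = (1 - d ^ 2) ^ n := by rw [← mul_pow, ham]; ring
          _ ≤ 1 := pow_le_one₀ (by nlinarith [(hd m).1, (hd m).2]) (by nlinarith)
      rw [div_mul_eq_mul_div, div_le_iff₀ (by positivity)]
      linarith
    have hO0 : 0 ≤ volume.real (O m ∩ K) := measureReal_nonneg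
    have hW0 : 0 ≤ W := measureReal_nonneg
    have hnp : (0 : ℝ) ≤ n + p := add_nonneg (Nat.cast_nonneg n) hp.le
    have hv0 : 0 ≤ volume.real (K \ L) := measureReal_nonneg
    have hfin : d * (((n : ℝ) + p) * (n / (1 + n * d)) * W) ≤
        d * (((n : ℝ) + p) * I + |T| * n * volume.real (O m ∩ K) + C₁ * (n * V) ^ 2 * d) := by
      have s1 : ((n : ℝ) + p) * ((1 - a m ^ n) * W) ≤ ((n : ℝ) + p) * volume.real (K \ L) := by
        refine mul_le_mul_of_nonneg_left ?_ hnp
        rw [hv, hUv]; exact le_add_of_nonneg_right measureReal_nonneg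
      have s2 : |T| * volume.real X ≤ |T| * (n * d * volume.real (O m ∩ K)) := by
        exact mul_le_mul_of_nonneg_left (hXv.trans (mul_le_mul_of_nonneg_right hpow hO0)) (abs_nonneg T)
      have s3 : C₁ * volume.real (K \ L) ^ 2 ≤ C₁ * (n * d * V) ^ 2 :=
        mul_le_mul_of_nonneg_left (pow_le_pow_left₀ hv0 hall 2) hC₁
      have s4 := mul_le_mul_of_nonneg_right hrp hI0
      have s5 := mul_le_mul_of_nonneg_left (mul_le_mul_of_nonneg_right hlow hW0) hnp
      nlinarith
    exact le_of_mul_le_mul_left hfin (hd m).1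
  have hd0 : Tendsto (fun m : ℕ => (1 : ℝ) / (m + 2)) atTop (𝓝 0) := by
    refine squeeze_zero (fun m => (hd m).1.le) (fun m => ?_)
      tendsto_one_div_add_atTop_nhds_zero_nat
    gcongr; linarith
  have hl : Tendsto (fun m : ℕ => ((n : ℝ) + p) * (n / (1 + n * (1 / ((m : ℝ) + 2)))) * W) atTop
      (𝓝 (((n : ℝ) + p) * n * W)) := by
    have := ((((hd0.const_mul (n : ℝ)).const_add 1).inv₀ (by norm_num)).const_mul
      ((n : ℝ))).const_mul ((n : ℝ) + p) |>.mul_const W
    simpa [div_eq_mul_inv] using this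
  have hr : Tendsto (fun m : ℕ => ((n : ℝ) + p) * I + |T| * n * volume.real (O m ∩ K) +
      C₁ * (n * V) ^ 2 * (1 / ((m : ℝ) + 2))) atTop (𝓝 (((n : ℝ) + p) * I)) := by
    simpa using (tendsto_const_nhds.add (hlim.const_mul (|T| * n))).add
      (hd0.const_mul (C₁ * (n * V) ^ 2))
  have hle := le_of_tendsto_of_tendsto hl hr hmain
  rw [hb.phi_eq hp hQ, sub_nonneg]
  nlinarith [Nat.cast_nonneg (α := ℝ) n]

end Vale.P254.Min.IsMin
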