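import Mathlib
import Vale.Agent.P254.Min.Cut

/-! Existence of a minimiser of `Hp`. -/

namespace Vale.P254.Min

open MeasureTheory Set Vale.P254.U Filter TopologicalSpace
open scoped Pointwise Topology

variable {m : ℕ} {p : ℝ}

/-- Multiplication by a vector. -/
def dil (a : Fin m → ℝ) (x : Fin m → ℝ) : Fin m → ℝ := a * x

theorem dil_body {K : Set (Fin m → ℝ)} (h : OrthBody K) {a : Fin m → ℝ} (ha : ∀ i, 0 < a i) :
    OrthBody (dil a '' K) := by
  refine ⟨h.compact.image (continuous_const.mul continuous_id),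
    h.convex.is_linear_image ⟨fun x y => mul_add a x y, fun c x => by simp [dil]⟩, ?_, ?_, ?_⟩
  · rintro _ ⟨x, hx, rfl⟩ i
    exact mul_nonneg (ha i).le (h.nonneg x hx i)
  · rintro _ ⟨x, hx, rfl⟩ y hy hyx
    refine ⟨fun i => y i / a i, h.down x hx _ (fun i => div_nonneg (hy i) (ha i).le) fun i => ?_, ?_⟩
    · rw [div_le_iff₀ (ha i), mul_comm]
      exact hyx i
    · funext i
      show a i * (y i / a i) = y i
      rw [mul_div_cancel₀ _ (ha i).ne']
  · obtain ⟨δ, R, hδ, -, hin, -⟩ := h.exists_boxes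
    refine (OrthBody.box_body (a := fun i => a i * δ) fun i => mul_pos (ha i) hδ).int_ne.mono
      (interior_mono fun y hy => ⟨fun i => y i / a i, hin ⟨fun i => div_nonneg (hy.1 i) (ha i).le,
        fun i => ?_⟩, ?_⟩)
    · rw [div_le_iff₀ (ha i), mul_comm]
      exact hy.2 i
    · funext i
      show a i * (y i / a i) = y i
      rw [mul_div_cancel₀ _ (ha i).ne']

theorem integral_dil {K : Set (Fin m → ℝ)} (h : OrthBody K) {a : Fin m → ℝ} (ha : ∀ i, 0 < a i)
    (g : (Fin m → ℝ) → ℝ) : ∫ u in dil a '' K, g u = (∏ i, a i) * ∫ x in K, g (dil a x) := by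
  set D : (Fin m → ℝ) →L[ℝ] (Fin m → ℝ) := ContinuousLinearMap.pi fun i =>
    a i • ContinuousLinearMap.proj (R := ℝ) (φ := fun _ : Fin m => ℝ) i with hD
  have hd : ∀ x ∈ K, HasFDerivWithinAt (dil a) D K x := fun x _ => by
    have e : dil a = (D : (Fin m → ℝ) → (Fin m → ℝ)) := by funext y i; simp [dil, hD]
    rw [e]
    exact D.hasFDerivWithinAt
  have hinj : InjOn (dil a) K := fun x _ y _ e => funext fun i =>
    mul_left_cancel₀ (ha i).ne' (congrFun e i)
  have hdet : |D.det| = ∏ i, a i := by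
    have : LinearMap.toMatrix' (D : (Fin m → ℝ) →ₗ[ℝ] (Fin m → ℝ)) = Matrix.diagonal a := by
      ext i j
      rcases eq_or_ne i j with rfl | hij
      · simp [hD, LinearMap.toMatrix'_apply]
      · simp [hD, LinearMap.toMatrix'_apply, hij]
    rw [ContinuousLinearMap.det, ← LinearMap.det_toMatrix', this, Matrix.det_diagonal,
      abs_of_nonneg (Finset.prod_nonneg fun i _ => (ha i).le)]
  rw [integral_image_eq_integral_abs_det_fderiv_smul volume h.measurableSet hd hinj,
    ← integral_const_mul]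
  simp only [hdet, smul_eq_mul]

theorem Hp_dil {K : Set (Fin m → ℝ)} (h : OrthBody K) (hp : 0 ≤ p) {a : Fin m → ℝ}
    (ha : ∀ i, 0 < a i) : Hp p (dil a '' K) = Hp p K := by
  have hP : 0 < ∏ i, a i := Finset.prod_pos fun i _ => ha i
  have hV : volume.real (dil a '' K) = (∏ i, a i) * volume.real K := by
    simpa using integral_dil h ha fun _ => (1 : ℝ)
  have he : ∀ j, emom p (dil a '' K) j = (∏ i, a i) * (a j ^ p * emom p K j) := fun j => by
    rw [emom, integral_dil h ha fun u => u j ^ p, emom, ← integral_const_mul (a j ^ p)]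
    congr 1
    exact setIntegral_congr_fun h.measurableSet fun x hx => by
      rw [dil, Pi.mul_apply, Real.mul_rpow (ha j).le (h.nonneg x hx j)]
  simp only [Hp, hV, he, Real.log_mul hP.ne' h.volume_pos.ne',
    Real.log_mul hP.ne' (mul_pos (Real.rpow_pos_of_pos (ha _) p) (h.emom_pos hp _)).ne',
    Real.log_mul (Real.rpow_pos_of_pos (ha _) p).ne' (h.emom_pos hp _).ne', Real.log_rpow (ha _),
    Finset.sum_add_distrib, ← Finset.mul_sum, Real.log_prod fun i _ => (ha i).ne']
  simp
  ring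

/-- The normalised class. -/
def normed (m : ℕ) : Set (NonemptyCompacts (Fin m → ℝ)) :=
  {K | (K : Set (Fin m → ℝ)) ⊆ Icc 0 1 ∧ Convex ℝ (K : Set (Fin m → ℝ)) ∧
    (∀ x ∈ (K : Set (Fin m → ℝ)), ∀ y, 0 ≤ y → y ≤ x → y ∈ (K : Set (Fin m → ℝ))) ∧
    ∀ i, Pi.single i 1 ∈ (K : Set (Fin m → ℝ))}

theorem normed_body {K : NonemptyCompacts (Fin m → ℝ)} (hK : K ∈ normed m) :
    OrthBody (K : Set (Fin m → ℝ)) := by
  obtain ⟨hsub, hcv, hdown, hsingle⟩ := hK
  refine ⟨K.isCompact, hcv, fun x hx => (hsub hx).1, hdown, ?_⟩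
  obtain ⟨x₀, hx₀⟩ := K.nonempty
  set δ : ℝ := 1 / (m + 1) with hδ
  have hδ0 : 0 < δ := by positivity
  refine (OrthBody.box_body (a := fun _ : Fin m => δ) fun _ => hδ0).int_ne.mono
    (interior_mono fun y hy => ?_)
  have h0 : (0 : Fin m → ℝ) ∈ (K : Set (Fin m → ℝ)) := hdown x₀ hx₀ 0 le_rfl (hsub hx₀).1
  rcases Nat.eq_zero_or_pos m with rfl | hm
  · rwa [Subsingleton.elim y 0]
  have hmem : (fun _ => 1 / (m : ℝ)) ∈ (K : Set (Fin m → ℝ)) := by
    have := hcv.sum_mem (t := Finset.univ) (w := fun _ : Fin m => 1 / (m : ℝ))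
      (z := fun i => (Pi.single i 1 : Fin m → ℝ)) (fun i _ => by positivity)
      (by simp; field_simp) fun i _ => hsingle i
    convert this using 1
    funext j
    simp [Finset.sum_apply, Pi.single_apply]
  refine hdown _ hmem y hy.1 fun i => (hy.2 i).trans ?_
  exact one_div_le_one_div_of_le (show (0 : ℝ) < m from Nat.cast_pos.2 hm) (by linarith)

theorem tendsto_mem {K : ℕ → NonemptyCompacts (Fin m → ℝ)} {L : NonemptyCompacts (Fin m → ℝ)}
    (h : Tendsto K atTop (𝓝 L)) {x : Fin m → ℝ} (hx : x ∈ (L : Set (Fin m → ℝ))) :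
    ∃ u : ℕ → Fin m → ℝ, (∀ j, u j ∈ (K j : Set (Fin m → ℝ))) ∧ Tendsto u atTop (𝓝 x) := by
  choose u hu hd using fun j => (K j).isCompact.exists_infDist_eq_dist (K j).nonempty x
  refine ⟨u, hu, tendsto_iff_dist_tendsto_zero.2 ?_⟩
  refine squeeze_zero (fun j => dist_nonneg) (fun j => ?_) (tendsto_iff_dist_tendsto_zero.1 h)
  rw [dist_comm (u j) x, ← hd j, dist_comm (K j) L, Metric.NonemptyCompacts.dist_eq]
  exact Metric.infDist_le_hausdorffDist_of_mem hx (Metric.hausdorffEDist_ne_top_of_nonempty_of_bounded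
    L.nonempty (K j).nonempty L.isCompact.isBounded (K j).isCompact.isBounded)

theorem mem_of_tendsto' {K : ℕ → NonemptyCompacts (Fin m → ℝ)}
    {L : NonemptyCompacts (Fin m → ℝ)} (h : Tendsto K atTop (𝓝 L)) {u : ℕ → Fin m → ℝ}
    {x : Fin m → ℝ} (hu : ∀ᶠ j in atTop, u j ∈ (K j : Set (Fin m → ℝ)))
    (hx : Tendsto u atTop (𝓝 x)) : x ∈ (L : Set (Fin m → ℝ)) := by
  rw [L.isCompact.isClosed.mem_iff_infDist_zero L.nonempty]
  refine le_antisymm ?_ Metric.infDist_nonneg
  have h2 : Tendsto (fun j => dist x (u j) + dist (K j) L) atTop (𝓝 0) := by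
    have := ((tendsto_const_nhds (x := x)).dist hx).add (tendsto_iff_dist_tendsto_zero.1 h)
    simpa using this
  refine ge_of_tendsto h2 (hu.mono fun j hj => ?_)
  refine le_trans (Metric.infDist_le_infDist_add_dist (y := u j)) ?_
  rw [add_comm, Metric.NonemptyCompacts.dist_eq]
  refine add_le_add le_rfl ?_
  exact Metric.infDist_le_hausdorffDist_of_mem hj (Metric.hausdorffEDist_ne_top_of_nonempty_of_bounded
    (K j).nonempty L.nonempty (K j).isCompact.isBounded L.isCompact.isBounded)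

theorem isClosed_normed : IsClosed (normed m) := by
  refine isSeqClosed_iff_isClosed.1 fun K L hK h => ⟨?_, ?_, ?_, ?_⟩
  · intro x hx
    obtain ⟨u, hu, hux⟩ := tendsto_mem h hx
    exact isClosed_Icc.mem_of_tendsto hux (Eventually.of_forall fun j => (hK j).1 (hu j))
  · intro x hx y hy a b ha hb hab
    obtain ⟨u, hu, hux⟩ := tendsto_mem h hx
    obtain ⟨v, hv, hvy⟩ := tendsto_mem h hy
    exact mem_of_tendsto' h (Eventually.of_forall fun j => (hK j).2.1 (hu j) (hv j) ha hb hab)
      ((hux.const_smul a).add (hvy.const_smul b))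
  · intro x hx y hy hyx
    obtain ⟨u, hu, hux⟩ := tendsto_mem h hx
    refine mem_of_tendsto' h (u := fun j i => min (y i) (u j i)) (Eventually.of_forall fun j =>
      (hK j).2.2.1 _ (hu j) _ (fun i => le_min (hy i) (((hK j).1 (hu j)).1 i))
        fun i => min_le_right _ _) (tendsto_pi_nhds.2 fun i => ?_)
    simpa [min_eq_left (hyx i)] using
      (tendsto_const_nhds (x := y i)).min ((tendsto_pi_nhds.1 hux) i)
  · exact fun i => mem_of_tendsto' h (Eventually.of_forall fun j => (hK j).2.2.2 i)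
      tendsto_const_nhds

theorem isCompact_normed : IsCompact (normed m) :=
  (NonemptyCompacts.isCompact_subsets_of_isCompact (isCompact_Icc (a := (0 : Fin m → ℝ)) (b := 1))
    ).of_isClosed_subset isClosed_normed fun _ hK => hK.1

theorem tendsto_integral_normed {K : ℕ → NonemptyCompacts (Fin m → ℝ)}
    {L : NonemptyCompacts (Fin m → ℝ)} (hK : ∀ j, K j ∈ normed m) (hL : L ∈ normed m)
    (h : Tendsto K atTop (𝓝 L)) {g : (Fin m → ℝ) → ℝ} (hg : Continuous g) :
    Tendsto (fun j => ∫ x in (K j : Set (Fin m → ℝ)), g x) atTop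
      (𝓝 (∫ x in (L : Set (Fin m → ℝ)), g x)) := by
  simp only [← integral_indicator (NonemptyCompacts.isCompact _).measurableSet]
  obtain ⟨T, hT⟩ := (isCompact_Icc (a := (0 : Fin m → ℝ)) (b := 1)).exists_bound_of_continuousOn
    hg.continuousOn
  refine tendsto_integral_of_dominated_convergence
    ((Icc (0 : Fin m → ℝ) 1).indicator fun _ => T)
    (fun j => hg.aestronglyMeasurable.indicator (K j).isCompact.measurableSet)
    ((integrable_indicator_iff measurableSet_Icc).2
      (integrableOn_const isCompact_Icc.measure_lt_top.ne))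
    (fun j => Eventually.of_forall fun x => ?_) ?_
  · by_cases hx : x ∈ (K j : Set (Fin m → ℝ))
    · rw [indicator_of_mem hx, indicator_of_mem ((hK j).1 hx)]
      exact hT x ((hK j).1 hx)
    · rw [indicator_of_notMem hx, norm_zero]
      by_cases hx' : x ∈ Icc (0 : Fin m → ℝ) 1
      · rw [indicator_of_mem hx']
        exact (norm_nonneg _).trans (hT x hx')
      · rw [indicator_of_notMem hx']
  · have hfr : ∀ᵐ x : Fin m → ℝ, x ∉ frontier (L : Set (Fin m → ℝ)) :=
      measure_eq_zero_iff_ae_notMem.1 (hL.2.1.addHaar_frontier volume)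
    filter_upwards [hfr] with x hx
    refine tendsto_const_nhds.congr' ?_
    by_cases hxL : x ∈ (L : Set (Fin m → ℝ))
    · have hint : x ∈ interior (L : Set (Fin m → ℝ)) := by
        by_contra hc
        exact hx ⟨subset_closure hxL, hc⟩
      obtain ⟨r, hr, hball⟩ := Metric.mem_nhds_iff.1 (mem_interior_iff_mem_nhds.1 hint)
      have hz : (x + fun _ => r / 2) ∈ (L : Set (Fin m → ℝ)) := hball <| by
        rw [Metric.mem_ball, dist_eq_norm, add_sub_cancel_left]
        exact ((pi_norm_le_iff_of_nonneg (by linarith)).2 fun _ => by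
          rw [Real.norm_eq_abs, abs_of_pos (by linarith)]).trans_lt (half_lt_self hr)
      obtain ⟨u, hu, hux⟩ := tendsto_mem h hz
      filter_upwards [hux.eventually (Metric.closedBall_mem_nhds _ (half_pos hr))] with j hj
      have hxu : x ≤ u j := fun i => by
        have := (dist_le_pi_dist (u j) (x + fun _ => r / 2) i).trans hj
        rw [Real.dist_eq, abs_le] at this
        simp only [Pi.add_apply] at this
        linarith
      rw [indicator_of_mem hxL, indicator_of_mem ((hK j).2.2.1 _ (hu j) _ (hL.1 hxL).1 hxu)]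
    · have : ∀ᶠ j in atTop, x ∉ (K j : Set (Fin m → ℝ)) := by
        have hd : 0 < Metric.infDist x (L : Set (Fin m → ℝ)) :=
          (L.isCompact.isClosed.notMem_iff_infDist_pos L.nonempty).1 hxL
        filter_upwards [(tendsto_iff_dist_tendsto_zero.1 h).eventually_lt_const hd] with j hj hxj
        rw [Metric.NonemptyCompacts.dist_eq] at hj
        exact absurd (Metric.infDist_le_hausdorffDist_of_mem hxj
          (Metric.hausdorffEDist_ne_top_of_nonempty_of_bounded (K j).nonempty L.nonempty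
            (K j).isCompact.isBounded L.isCompact.isBounded)) (not_le.2 hj)
      filter_upwards [this] with j hj
      rw [indicator_of_notMem hxL, indicator_of_notMem hj]

theorem exists_scaled {K : Set (Fin m → ℝ)} (h : OrthBody K) (hp : 0 ≤ p) :
    ∃ L ∈ normed m, Hp p (L : Set (Fin m → ℝ)) = Hp p K := by
  obtain ⟨δ, R, hδ, -, hin, -⟩ := h.exists_boxes
  choose z hzK hzmax using fun i => h.compact.exists_isMaxOn ⟨_, h.zero_mem⟩
    (continuous_apply i).continuousOn
  have hpos : ∀ i, 0 < z i i := fun i =>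
    hδ.trans_le (hzmax i (hin ⟨fun _ => hδ.le, le_rfl⟩))
  set a : Fin m → ℝ := fun i => (z i i)⁻¹ with ha
  have ha0 : ∀ i, 0 < a i := fun i => inv_pos.2 (hpos i)
  have hb := dil_body h ha0
  refine ⟨⟨⟨dil a '' K, hb.compact⟩, ⟨0, hb.zero_mem⟩⟩,
    ⟨?_, hb.convex, hb.down, fun i => ?_⟩, Hp_dil h hp ha0⟩
  · rintro _ ⟨x, hx, rfl⟩
    refine ⟨hb.nonneg _ ⟨x, hx, rfl⟩, fun i => ?_⟩
    show (z i i)⁻¹ * x i ≤ 1
    exact (inv_mul_le_one₀ (hpos i)).2 (hzmax i hx)
  · refine hb.down _ ⟨z i, hzK i, rfl⟩ _ (Pi.single_nonneg.2 zero_le_one) fun j => ?_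
    rcases eq_or_ne j i with rfl | hj
    · show (Pi.single j (1 : ℝ) : Fin m → ℝ) j ≤ (z j j)⁻¹ * z j j
      rw [Pi.single_eq_same, inv_mul_cancel₀ (hpos j).ne']
    · rw [Pi.single_eq_of_ne hj]
      exact mul_nonneg (ha0 j).le (h.nonneg _ (hzK i) j)

/-- A minimiser exists. -/
theorem exists_min (hp : 0 < p) (hp1 : p < 1) {K₀ : Set (Fin m → ℝ)} (h₀ : OrthBody K₀) :
    ∃ K : Set (Fin m → ℝ), IsMin p K ∧ Hp p K ≤ Hp p K₀ := by
  obtain ⟨L₀, hL₀, he₀⟩ := exists_scaled h₀ hp.le
  have hc : ContinuousOn (fun K : NonemptyCompacts (Fin m → ℝ) => Hp p (K : Set (Fin m → ℝ)))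
      (normed m) := by
    rw [continuousOn_iff_continuous_domRestrict, continuous_iff_seqContinuous]
    intro K L h
    have h' : Tendsto (fun j => (K j).1) atTop (𝓝 L.1) :=
      (continuous_subtype_val.tendsto L).comp h
    have hi : ∀ g : (Fin m → ℝ) → ℝ, Continuous g →
        Tendsto (fun j => ∫ x in ((K j).1 : Set (Fin m → ℝ)), g x) atTop
          (𝓝 (∫ x in (L.1 : Set (Fin m → ℝ)), g x)) :=
      fun g hg => tendsto_integral_normed (fun j => (K j).2) L.2 h' hg
    have hV : Tendsto (fun j => volume.real ((K j).1 : Set (Fin m → ℝ))) atTop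
        (𝓝 (volume.real (L.1 : Set (Fin m → ℝ)))) := by
      simpa using hi (fun _ => 1) continuous_const
    exact ((hV.log (normed_body L.2).volume_pos.ne').const_mul _).sub
      (tendsto_finsetSum _ fun j _ => (hi _ (continuous_rpow_coord hp.le j)).log
        ((normed_body L.2).emom_pos hp.le j).ne')
  obtain ⟨K, hK, hmin⟩ := isCompact_normed.exists_isMinOn ⟨L₀, hL₀⟩ hc
  refine ⟨(K : Set (Fin m → ℝ)), ⟨normed_body hK, hp, hp1, fun L hL _ => ?_⟩,
    he₀ ▸ hmin hL₀⟩
  obtain ⟨L', hL', he⟩ := exists_scaled hL hp.le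
  exact he ▸ hmin hL'

end Vale.P254.Min
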