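import Mathlib
import Vale.Agent.P254.Min.Cut

/-! Sections, fibres and Fubini along one coordinate. -/

namespace Vale.P254.Min

open MeasureTheory Set Vale.P254.U Filter
open scoped Pointwise

variable {k : ℕ}

/-- Insertion of a coordinate. -/
abbrev ins (i : Fin (k + 1)) (t : ℝ) (u : Fin k → ℝ) : Fin (k + 1) → ℝ :=
  Fin.insertNth (α := fun _ => ℝ) i t u

theorem continuous_insertNth (i : Fin (k + 1)) :
    Continuous fun q : ℝ × (Fin k → ℝ) => ins i q.1 q.2 := by
  refine continuous_pi fun j => ?_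
  rcases Fin.eq_self_or_eq_succAbove i j with rfl | ⟨l, rfl⟩ <;> simp <;> fun_prop

theorem insertNth_le {i : Fin (k + 1)} {t t' : ℝ} {u u' : Fin k → ℝ} (ht : t ≤ t') (hu : u ≤ u') :
    ins i t u ≤ ins i t' u' := fun j => by
  rcases Fin.eq_self_or_eq_succAbove i j with rfl | ⟨l, rfl⟩
  · simpa using ht
  · simpa using hu l

theorem insertNth_nonneg {i : Fin (k + 1)} {t : ℝ} {u : Fin k → ℝ} (ht : 0 ≤ t) (hu : 0 ≤ u) :
    0 ≤ ins i t u := fun j => by
  rcases Fin.eq_self_or_eq_succAbove i j with rfl | ⟨l, rfl⟩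
  · simpa using ht
  · simpa using hu l

theorem insertNth_smul (i : Fin (k + 1)) (s t : ℝ) (u : Fin k → ℝ) :
    ins i (s * t) (s • u) = s • ins i t u := by
  funext j
  rcases Fin.eq_self_or_eq_succAbove i j with rfl | ⟨l, rfl⟩ <;> simp

theorem insertNth_combo (i : Fin (k + 1)) (a b t t' : ℝ) (u u' : Fin k → ℝ) :
    ins i (a * t + b * t') (a • u + b • u') =
      a • ins i t u + b • ins i t' u' := by
  funext j
  rcases Fin.eq_self_or_eq_succAbove i j with rfl | ⟨l, rfl⟩ <;> simp

/-- The section at `x i = 0`. -/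
def sec (i : Fin (k + 1)) (K : Set (Fin (k + 1) → ℝ)) : Set (Fin k → ℝ) :=
  {u | ins i 0 u ∈ K}

/-- The fibre length. -/
noncomputable def ell (i : Fin (k + 1)) (K : Set (Fin (k + 1) → ℝ)) (u : Fin k → ℝ) : ℝ :=
  sSup {t | ins i t u ∈ K}

/-- The mean of the density over a fibre. -/
noncomputable def gden (p : ℝ) (i : Fin (k + 1)) (K : Set (Fin (k + 1) → ℝ)) (u : Fin k → ℝ) : ℝ :=
  (∑ j, wt p K (i.succAbove j) * u j ^ p) + wt p K i * ell i K u ^ p / (1 + p)

/-- A function on the body whose maximum along a fibre is `gden`. -/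
noncomputable def hden (p : ℝ) (i : Fin (k + 1)) (K : Set (Fin (k + 1) → ℝ))
    (x : Fin (k + 1) → ℝ) : ℝ :=
  (∑ j, wt p K (i.succAbove j) * x (i.succAbove j) ^ p) + wt p K i * x i ^ p / (1 + p)

end Vale.P254.Min

namespace Vale.P254.U.OrthBody

open MeasureTheory Set Vale.P254.Min Filter
open scoped Pointwise

variable {k : ℕ} {K : Set (Fin (k + 1) → ℝ)} {i : Fin (k + 1)} {u : Fin k → ℝ}

theorem sec_body (h : OrthBody K) (i : Fin (k + 1)) : OrthBody (sec i K) := by
  have hc : Continuous fun u : Fin k → ℝ => ins i (0 : ℝ) u :=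
    (continuous_insertNth i).comp (Continuous.prodMk continuous_const continuous_id)
  refine ⟨?_, ?_, ?_, ?_, ?_⟩
  · refine (h.compact.image (f := fun x j => x (i.succAbove j)) (by fun_prop)).of_isClosed_subset
      (h.compact.isClosed.preimage hc) fun u hu => ⟨_, hu, by simp⟩
  · intro u hu u' hu' a b ha hb hab
    have := h.convex hu hu' ha hb hab
    rw [← insertNth_combo] at this
    simpa [sec] using this
  · intro u hu j
    simpa using h.nonneg _ hu (i.succAbove j)
  · exact fun u hu v hv hvu => h.down _ hu _ (insertNth_nonneg le_rfl hv) (insertNth_le le_rfl hvu)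
  · obtain ⟨δ, R, hδ, -, hin, -⟩ := h.exists_boxes
    have hsub : Icc (0 : Fin k → ℝ) (fun _ => δ) ⊆ sec i K := fun u hu => by
      refine hin ⟨insertNth_nonneg le_rfl hu.1, fun j => ?_⟩
      rcases Fin.eq_self_or_eq_succAbove i j with rfl | ⟨l, rfl⟩
      · simpa using hδ.le
      · simpa using hu.2 l
    refine Set.Nonempty.mono (interior_mono hsub) ?_
    rw [← pi_univ_Icc, interior_pi_set finite_univ]
    refine univ_pi_nonempty_iff.2 fun _ => ?_
    rw [interior_Icc]
    exact nonempty_Ioo.2 hδ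

theorem removeNth_mem (h : OrthBody K) {x : Fin (k + 1) → ℝ} (hx : x ∈ K) (i : Fin (k + 1)) :
    i.removeNth x ∈ sec i K := by
  refine h.down x hx _ (insertNth_nonneg le_rfl fun j => h.nonneg x hx _) fun j => ?_
  rcases Fin.eq_self_or_eq_succAbove i j with rfl | ⟨l, rfl⟩
  · simpa using h.nonneg x hx _
  · simp [Fin.removeNth]

theorem fibre_bdd (h : OrthBody K) (i : Fin (k + 1)) (u : Fin k → ℝ) :
    BddAbove {t | ins i t u ∈ K} := by
  obtain ⟨δ, R, -, -, -, hout⟩ := h.exists_boxes
  exact ⟨R, fun t ht => by simpa using (hout ht).2 i⟩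

theorem ell_mem (h : OrthBody K) (hu : u ∈ sec i K) : ins i (ell i K u) u ∈ K := by
  have hc : IsClosed {t | ins i t u ∈ K} :=
    h.compact.isClosed.preimage
      ((continuous_insertNth i).comp (Continuous.prodMk continuous_id continuous_const))
  exact hc.csSup_mem ⟨0, hu⟩ (h.fibre_bdd i u)

theorem ell_nonneg (h : OrthBody K) (hu : u ∈ sec i K) : 0 ≤ ell i K u :=
  le_csSup (h.fibre_bdd i u) hu

theorem mem_fibre (h : OrthBody K) (hu : u ∈ sec i K) {t : ℝ} :
    ins i t u ∈ K ↔ t ∈ Icc 0 (ell i K u) :=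
  ⟨fun ht => ⟨by simpa using h.nonneg _ ht i, le_csSup (h.fibre_bdd i u) ht⟩,
    fun ht => h.down _ (h.ell_mem hu) _ (insertNth_nonneg ht.1 ((h.sec_body i).nonneg u hu))
      (insertNth_le ht.2 le_rfl)⟩

theorem ell_anti (h : OrthBody K) {v : Fin k → ℝ} (hv : v ∈ sec i K) (hu : 0 ≤ u) (huv : u ≤ v) :
    ell i K v ≤ ell i K u :=
  le_csSup (h.fibre_bdd i u) <| h.down _ (h.ell_mem hv) _
    (insertNth_nonneg (h.ell_nonneg hv) hu) (insertNth_le le_rfl huv)

theorem ell_concave (h : OrthBody K) (i : Fin (k + 1)) : ConcaveOn ℝ (sec i K) (ell i K) := by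
  refine ⟨(h.sec_body i).convex, fun u hu v hv a b ha hb hab => le_csSup (h.fibre_bdd i _) ?_⟩
  show ins i (a • ell i K u + b • ell i K v) (a • u + b • v) ∈ K
  simp only [smul_eq_mul]
  rw [insertNth_combo]
  exact h.convex (h.ell_mem hu) (h.ell_mem hv) ha hb hab

theorem gden_concave (h : OrthBody K) {p : ℝ} (hp0 : 0 ≤ p) (hp1 : p ≤ 1) (i : Fin (k + 1)) :
    ConcaveOn ℝ (sec i K) (gden p i K) := by
  have hr := Real.concaveOn_rpow hp0 hp1
  refine ⟨(h.sec_body i).convex, fun u hu v hv a b ha hb hab => ?_⟩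
  simp only [gden, smul_eq_mul, mul_add]
  have hu0 := (h.sec_body i).nonneg u hu
  have hv0 := (h.sec_body i).nonneg v hv
  have hmem : a • u + b • v ∈ sec i K := (h.sec_body i).convex hu hv ha hb hab
  have h1 : a * (∑ j, wt p K (i.succAbove j) * u j ^ p) + b * (∑ j, wt p K (i.succAbove j) * v j ^ p)
      ≤ ∑ j, wt p K (i.succAbove j) * (a • u + b • v) j ^ p := by
    rw [Finset.mul_sum, Finset.mul_sum, ← Finset.sum_add_distrib]
    refine Finset.sum_le_sum fun j _ => ?_
    have := mul_le_mul_of_nonneg_left (hr.2 (hu0 j) (hv0 j) ha hb hab)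
      (h.wt_pos hp0 (i.succAbove j)).le
    simp only [smul_eq_mul] at this
    simp only [Pi.add_apply, Pi.smul_apply, smul_eq_mul]
    linarith
  have hl := (h.ell_concave i).2 hu hv ha hb hab
  have h2 := hr.2 (h.ell_nonneg hu) (h.ell_nonneg hv) ha hb hab
  simp only [smul_eq_mul] at hl h2
  have h3 : (a * ell i K u + b * ell i K v) ^ p ≤ ell i K (a • u + b • v) ^ p :=
    Real.rpow_le_rpow
      (add_nonneg (mul_nonneg ha (h.ell_nonneg hu)) (mul_nonneg hb (h.ell_nonneg hv))) hl hp0
  have hw : 0 ≤ wt p K i / (1 + p) := div_nonneg (h.wt_pos hp0 i).le (by linarith)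
  have h4 := mul_le_mul_of_nonneg_left (h2.trans h3) hw
  linear_combination h1 + h4

theorem hden_le (h : OrthBody K) {p : ℝ} (hp : 0 ≤ p) {x : Fin (k + 1) → ℝ} (hx : x ∈ K)
    (i : Fin (k + 1)) : hden p i K x ≤ gden p i K (i.removeNth x) := by
  simp only [hden, gden, Fin.removeNth]
  have hle : x i ≤ ell i K (i.removeNth x) := by
    refine le_csSup (h.fibre_bdd i _) ?_
    show ins i (x i) (i.removeNth x) ∈ K
    rw [show ins i (x i) (i.removeNth x) = x from Fin.insertNth_self_removeNth i x]; exact hx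
  gcongr
  · exact (h.wt_pos hp i).le
  · exact h.nonneg x hx i

theorem isClosed_gden_ge (h : OrthBody K) {p : ℝ} (hp : 0 ≤ p) (i : Fin (k + 1)) (a : ℝ) :
    IsClosed {u | u ∈ sec i K ∧ a ≤ gden p i K u} := by
  have hcx : Continuous (hden p i K) := by
    unfold hden
    refine Continuous.add (continuous_finsetSum _ fun j _ =>
      continuous_const.mul (continuous_rpow_coord hp _)) ?_
    exact (continuous_const.mul (continuous_rpow_coord hp i)).div_const _
  have e : {u | u ∈ sec i K ∧ a ≤ gden p i K u}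
      = (fun x : Fin (k + 1) → ℝ => i.removeNth x) '' (K ∩ {x | a ≤ hden p i K x}) := by
    ext u
    constructor
    · rintro ⟨hu, ha⟩
      refine ⟨ins i (ell i K u) u, ⟨h.ell_mem hu, ?_⟩, by simp⟩
      simpa [hden, gden] using ha
    · rintro ⟨x, ⟨hx, ha⟩, rfl⟩
      exact ⟨h.removeNth_mem hx i, le_trans ha (h.hden_le hp hx i)⟩
  rw [e]
  exact ((h.compact.inter_right (isClosed_le continuous_const hcx)).image
    (continuous_pi fun j => continuous_apply _)).isClosed

/-- Fubini along the coordinate `i`. -/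
theorem integral_fibres (h : OrthBody K) (i : Fin (k + 1)) {W : Set (Fin k → ℝ)}
    (hW : MeasurableSet W) {f : (Fin (k + 1) → ℝ) → ℝ} (hf : Continuous f) :
    IntegrableOn (fun u => ∫ t in (0 : ℝ)..ell i K u, f (ins i t u)) (W ∩ sec i K) ∧
    ∫ x in K ∩ {x | i.removeNth x ∈ W}, f x
      = ∫ u in W ∩ sec i K, ∫ t in (0 : ℝ)..ell i K u, f (ins i t u) := by
  set e : (Fin (k + 1) → ℝ) ≃ᵐ ℝ × (Fin k → ℝ) := MeasurableEquiv.piFinSuccAbove (fun _ => ℝ) i
    with he
  have hp : MeasurePreserving e.symm (volume : Measure (ℝ × (Fin k → ℝ))) volume :=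
    (volume_preserving_piFinSuccAbove (fun _ : Fin (k + 1) => ℝ) i).symm
  have hc : ∀ q : ℝ × (Fin k → ℝ), e.symm q = ins i q.1 q.2 := fun q => by
    simp [he, MeasurableEquiv.piFinSuccAbove, Fin.insertNthEquiv]
  set A := K ∩ {x | i.removeNth x ∈ W} with hA
  have hAm : MeasurableSet A :=
    h.measurableSet.inter (hW.preimage (measurable_pi_iff.2 fun j => measurable_pi_apply _))
  have hi : Integrable (A.indicator f) :=
    ((h.integrableOn hf).mono_set inter_subset_left).integrable_indicator hAm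
  have hi' : Integrable (fun q => A.indicator f (e.symm q))
      ((volume : Measure ℝ).prod (volume : Measure (Fin k → ℝ))) :=
    hp.integrable_comp_of_integrable hi
  have hinner : ∀ u, ∫ t, A.indicator f (e.symm (t, u))
      = (W ∩ sec i K).indicator (fun u => ∫ t in (0 : ℝ)..ell i K u, f (ins i t u)) u := by
    intro u
    by_cases hu : u ∈ W ∩ sec i K
    · rw [indicator_of_mem hu, intervalIntegral.integral_of_le (h.ell_nonneg hu.2),
        ← integral_Icc_eq_integral_Ioc, ← integral_indicator measurableSet_Icc]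
      refine integral_congr_ae (Eventually.of_forall fun t => ?_)
      simp only [hc, indicator, hA, mem_inter_iff, mem_ofPred_eq, Fin.removeNth_insertNth,
        h.mem_fibre hu.2, hu.1, and_true]
    · rw [indicator_of_notMem hu]
      refine integral_eq_zero_of_ae (Eventually.of_forall fun t => ?_)
      simp only [hc, Pi.zero_apply]
      refine indicator_of_notMem (fun hm => hu ⟨?_, ?_⟩) _
      · simpa using hm.2
      · simpa using h.removeNth_mem hm.1 i
  have hWm := hW.inter (h.sec_body i).measurableSet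
  constructor
  · rw [← integrable_indicator_iff hWm]
    simpa only [hinner] using hi'.integral_prod_right
  · rw [← integral_indicator hAm, ← hp.integral_comp e.symm.measurableEmbedding,
      Measure.volume_eq_prod, integral_prod_symm _ hi', ← integral_indicator hWm]
    simp only [hinner]

theorem integral_fibre_sden (h : OrthBody K) {p : ℝ} (hp : 0 ≤ p) (hu : u ∈ sec i K) :
    ∫ t in (0 : ℝ)..ell i K u, sden p K (ins i t u) = ell i K u * gden p i K u := by
  have e : ∀ t : ℝ, sden p K (ins i t u)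
      = (∑ j, wt p K (i.succAbove j) * u j ^ p) + wt p K i * t ^ p := fun t => by
    rw [sden, Fin.sum_univ_succAbove _ i]
    simp [add_comm]
  simp only [e]
  rw [intervalIntegral.integral_add intervalIntegrable_const
    ((intervalIntegral.intervalIntegrable_rpow (Or.inl hp)).const_mul _),
    intervalIntegral.integral_const_mul, integral_rpow (Or.inl (by linarith)),
    intervalIntegral.integral_const, Real.zero_rpow (by linarith)]
  rcases (h.ell_nonneg hu).eq_or_lt with h0 | h0
  · rw [← h0]; simp [Real.zero_rpow (show p + 1 ≠ 0 by linarith)]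
  · rw [gden, Real.rpow_add_one h0.ne']
    simp only [smul_eq_mul, sub_zero]
    rw [add_comm (1 : ℝ) p]
    ring

end Vale.P254.U.OrthBody
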