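import Mathlib
import Vale.Agent.P254.Min.Slice

/-! The density is at least `n + p` on positively supported boundary points of a minimiser. -/

namespace Vale.P254.Min

open MeasureTheory Set Vale.P254.U Filter
open scoped Pointwise Topology

variable {m k : ℕ}

theorem isCompact_convexHull {A : Set (Fin m → ℝ)} (hA : IsCompact A) :
    IsCompact (convexHull ℝ A) := by
  rcases A.eq_empty_or_nonempty with rfl | ⟨a₀, ha₀⟩
  · simp
  set f : (Fin (m + 1) → ℝ) × (Fin (m + 1) → Fin m → ℝ) → (Fin m → ℝ) :=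
    fun q => ∑ i, q.1 i • q.2 i with hf
  have e : convexHull ℝ A = f '' (stdSimplex ℝ (Fin (m + 1)) ×ˢ univ.pi fun _ => A) := by
    refine Subset.antisymm (fun x hx => ?_) ?_
    · obtain ⟨ι, _, z, w, hz, hz', hw, hw1, rfl⟩ := eq_pos_convex_span_of_mem_convexHull hx
      have hcard : Fintype.card ι ≤ Fintype.card (Fin (m + 1)) := by
        refine hz'.card_le_finrank_succ.trans ?_
        rw [Fintype.card_fin]
        exact Nat.add_le_add_right ((Submodule.finrank_le _).trans_eq (Module.finrank_fin_fun ℝ)) 1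
      obtain ⟨φ⟩ := Function.Embedding.nonempty_of_card_le hcard
      classical
      refine ⟨(Function.extend φ w 0, Function.extend φ z fun _ => a₀), ⟨⟨fun i => ?_, ?_⟩,
        fun i _ => ?_⟩, ?_⟩
      · by_cases hi : ∃ l, φ l = i
        · obtain ⟨l, rfl⟩ := hi
          simp [φ.injective.extend_apply, (hw l).le]
        · simp [Function.extend_apply' _ _ _ hi]
      · rw [← hw1, ← Finset.sum_subset (Finset.subset_univ (Finset.univ.map φ)) fun i _ hi => ?_]
        · simp [φ.injective.extend_apply]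
        · exact Function.extend_apply' _ _ _ fun ⟨l, hl⟩ => hi (by simp [← hl])
      · by_cases hi : ∃ l, φ l = i
        · obtain ⟨l, rfl⟩ := hi
          simpa [φ.injective.extend_apply] using hz (mem_range_self l)
        · simpa [Function.extend_apply' _ _ _ hi] using ha₀
      · simp only [hf]
        rw [← Finset.sum_subset (Finset.subset_univ (Finset.univ.map φ)) fun i _ hi => ?_]
        · simp [φ.injective.extend_apply]
        · rw [Function.extend_apply' _ _ _ fun ⟨l, hl⟩ => hi (by simp [← hl])]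
          simp
    · rintro _ ⟨⟨w, z⟩, ⟨hw, hz⟩, rfl⟩
      exact (convex_convexHull ℝ A).sum_mem (fun i _ => hw.1 i) hw.2
        fun i _ => subset_convexHull ℝ A (hz i (mem_univ i))
  rw [e]
  exact ((isCompact_stdSimplex ℝ _).prod (isCompact_univ_pi fun _ => hA)).image
    (continuous_finsetSum _ fun i _ =>
      ((continuous_apply i).comp continuous_fst).smul ((continuous_apply i).comp continuous_snd))

/-- Cutting off a maximal extreme point. -/
theorem exists_cut {C : Set (Fin m → ℝ)} (hC : OrthBody C) {e : Fin m → ℝ}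
    (he : e ∈ C.extremePoints ℝ) (hmax : ∀ z ∈ C, e ≤ z → z = e) (he0 : e ≠ 0) {ε : ℝ}
    (hε : 0 < ε) : ∃ C', OrthBody C' ∧ C' ⊆ C ∧ e ∉ C' ∧ C \ C' ⊆ Metric.ball e ε := by
  obtain ⟨δ₀, R, hδ₀, -, hin, -⟩ := hC.exists_boxes
  set δ := min δ₀ (‖e‖ / 2) with hδdef
  have hδ : 0 < δ := lt_min hδ₀ (by positivity)
  set A := (C \ Metric.ball e ε) ∪ Icc (0 : Fin m → ℝ) (fun _ => δ) with hAdef
  have hAC : A ⊆ C := union_subset sdiff_subset fun x hx =>
    hin ⟨hx.1, fun i => (hx.2 i).trans (min_le_left _ _)⟩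
  have hAc : IsCompact A := (hC.compact.diff Metric.isOpen_ball).union isCompact_Icc
  set H := convexHull ℝ A with hH
  have hHc : IsCompact H := isCompact_convexHull hAc
  have hHC : H ⊆ C := convexHull_min hAC hC.convex
  set C' := {y | 0 ≤ y ∧ ∃ z ∈ H, y ≤ z} with hC'
  have hsub : C' ⊆ C := fun y hy => by
    obtain ⟨hy0, z, hz, hyz⟩ := hy
    exact hC.down z (hHC hz) y hy0 hyz
  have hAC' : A ⊆ C' := fun x hx => ⟨hC.nonneg x (hAC hx), x, subset_convexHull ℝ A hx, le_rfl⟩
  refine ⟨C', ⟨?_, ?_, fun y hy => hy.1, ?_, ?_⟩, hsub, ?_, fun x hx => ?_⟩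
  · have he' : C' = Prod.fst '' ((C ×ˢ H) ∩ {q : (Fin m → ℝ) × (Fin m → ℝ) | q.1 ≤ q.2}) := by
      ext y
      constructor
      · intro hy
        obtain ⟨-, z, hz, hyz⟩ := id hy
        exact ⟨(y, z), ⟨⟨hsub hy, hz⟩, hyz⟩, rfl⟩
      · rintro ⟨q, ⟨⟨hq1, hq2⟩, hq⟩, rfl⟩
        exact ⟨hC.nonneg _ hq1, q.2, hq2, hq⟩
    rw [he']
    exact ((hC.compact.prod hHc).inter_right
      (isClosed_le continuous_fst continuous_snd)).image continuous_fst
  · rintro x ⟨hx, z, hz, hxz⟩ y ⟨hy, z', hz', hyz⟩ a b ha hb hab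
    exact ⟨add_nonneg (smul_nonneg ha hx) (smul_nonneg hb hy), a • z + b • z',
      convex_convexHull ℝ A hz hz' ha hb hab, add_le_add (smul_le_smul_of_nonneg_left hxz ha)
        (smul_le_smul_of_nonneg_left hyz hb)⟩
  · rintro x ⟨-, z, hz, hxz⟩ y hy hyx
    exact ⟨hy, z, hz, hyx.trans hxz⟩
  · have hb := OrthBody.box_body (a := fun _ : Fin m => δ) fun _ => hδ
    exact hb.int_ne.mono (interior_mono (subset_union_right.trans hAC'))
  · rintro ⟨-, z, hz, hez⟩
    obtain rfl := hmax z (hHC hz) hez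
    have h1 : z ∈ H.extremePoints ℝ :=
      inter_extremePoints_subset_extremePoints_of_subset hHC ⟨hz, he⟩
    rcases extremePoints_convexHull_subset h1 with h2 | h2
    · exact h2.2 (Metric.mem_ball_self hε)
    · have : ‖z‖ ≤ δ := (pi_norm_le_iff_of_nonneg hδ.le).2 fun i => by
        rw [Real.norm_eq_abs, abs_of_nonneg (h2.1 i)]
        exact h2.2 i
      have h3 : δ ≤ ‖z‖ / 2 := min_le_right _ _
      linarith [norm_pos_iff.2 he0]
  · by_contra hxb
    exact hx.2 (hAC' (Or.inl ⟨hx.1, hxb⟩))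

/-- Propagation from maximal extreme points to positively supported points. -/
theorem face_ge {C : Set (Fin m → ℝ)} (hC : OrthBody C) {g : (Fin m → ℝ) → ℝ} {c : ℝ}
    (hcl : IsClosed {u | u ∈ C ∧ c ≤ g u}) (hcv : ConcaveOn ℝ C g)
    (hext : ∀ e ∈ C.extremePoints ℝ, (∀ z ∈ C, e ≤ z → z = e) → e ≠ 0 → c ≤ g e)
    {ν : Fin m → ℝ} (hν : ∀ i, 0 < ν i) {y : Fin m → ℝ} (hy : y ∈ C) (hy0 : y ≠ 0)
    (hsup : ∀ z ∈ C, ∑ i, ν i * z i ≤ ∑ i, ν i * y i) : c ≤ g y := by
  set l : StrongDual ℝ (Fin m → ℝ) := ∑ i, ν i • ContinuousLinearMap.proj i with hl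
  have hlx : ∀ z, l z = ∑ i, ν i * z i := fun z => by simp [hl]
  set F := l.toExposed C with hF
  have hFe : IsExposed ℝ C F := ContinuousLinearMap.toExposed.isExposed
  have hyF : y ∈ F := ⟨hy, fun z hz => by rw [hlx, hlx]; exact hsup z hz⟩
  have key : F.extremePoints ℝ ⊆ {u | u ∈ C ∧ c ≤ g u} := fun e he => by
    have heC : e ∈ C.extremePoints ℝ := hFe.isExtreme.extremePoints_subset_extremePoints he
    have hemax := (extremePoints_subset he).2
    refine ⟨heC.1, hext e heC (fun z hz hez => ?_) fun e0 => ?_⟩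
    · have h1 := hemax z hz
      rw [hlx, hlx] at h1
      funext i
      refine le_antisymm ?_ (hez i)
      by_contra hc
      have : ∑ j, ν j * e j < ∑ j, ν j * z j :=
        Finset.sum_lt_sum (fun j _ => mul_le_mul_of_nonneg_left (hez j) (hν j).le)
          ⟨i, Finset.mem_univ i, mul_lt_mul_of_pos_left (lt_of_not_ge hc) (hν i)⟩
      linarith
    · have h1 := hemax y hy
      rw [hlx, hlx, e0] at h1
      simp only [Pi.zero_apply, mul_zero, Finset.sum_const_zero] at h1
      obtain ⟨i, hi⟩ : ∃ i, y i ≠ 0 := by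
        by_contra h
        exact hy0 (funext fun i => not_not.1 fun hi => h ⟨i, hi⟩)
      have : 0 < ∑ j, ν j * y j := Finset.sum_pos'
        (fun j _ => mul_nonneg (hν j).le (hC.nonneg y hy j))
        ⟨i, Finset.mem_univ i, mul_pos (hν i) ((hC.nonneg y hy i).lt_of_ne' hi)⟩
      linarith
  have := closure_minimal (convexHull_min key (hcv.convex_ge c)) hcl
  rw [closure_convexHull_extremePoints (hFe.isCompact hC.compact) (hFe.convex hC.convex)] at this
  exact (this hyF).2

theorem exists_volume_ball_le (e : Fin m → ℝ) (hm : 0 < m) {η : ℝ} (hη : 0 < η) :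
    ∃ ε₀ : ℝ, 0 < ε₀ ∧ ∀ ε, 0 < ε → ε ≤ ε₀ → volume.real (Metric.ball e ε) ≤ η := by
  refine ⟨min (1 / 2) (η / 2), lt_min (by norm_num) (by positivity), fun ε hε hε' => ?_⟩
  rw [measureReal_def, Real.volume_pi_ball e hε, ENNReal.toReal_ofReal (by positivity),
    Fintype.card_fin]
  have h1 : 2 * ε ≤ 1 := by linarith [hε'.trans (min_le_left _ _)]
  calc (2 * ε) ^ m ≤ (2 * ε) ^ 1 := pow_le_pow_of_le_one (by positivity) h1 hm
    _ ≤ η := by rw [pow_one]; linarith [hε'.trans (min_le_right _ _)]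

namespace IsMin

variable {p : ℝ}

theorem sden_extreme {K : Set (Fin m → ℝ)} (h : IsMin p K) {e : Fin m → ℝ}
    (he : e ∈ K.extremePoints ℝ) (hmax : ∀ z ∈ K, e ≤ z → z = e) (he0 : e ≠ 0) :
    (m : ℝ) + p ≤ sden p K e := by
  rcases Nat.eq_zero_or_pos m with rfl | hm
  · exact absurd (Subsingleton.elim e 0) he0
  by_contra hlt
  rw [not_le] at hlt
  obtain ⟨C, v₀, hC, hv₀, hcut⟩ := h.cut
  set η := ((m : ℝ) + p - sden p K e) / 2 with hη
  have hη0 : 0 < η := by simp only [hη]; linarith
  obtain ⟨ε₁, hε₁, hb₁⟩ :=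
    exists_volume_ball_le e hm (η := min v₀ (η / (C + 1))) (lt_min hv₀ (by positivity))
  obtain ⟨ε₂, hε₂, hb₂⟩ := Metric.eventually_nhds_iff.1
    ((continuous_sden h.pos.le K).continuousAt.eventually_lt continuousAt_const
      (show sden p K e < (m : ℝ) + p - η by simp only [hη]; linarith))
  obtain ⟨L, hL, hLK, heL, hsub⟩ := exists_cut h.body he hmax he0 (lt_min hε₁ hε₂)
  set v := volume.real (K \ L) with hv
  have hfin : volume (Metric.ball e (min ε₁ ε₂)) ≠ ⊤ := measure_ball_lt_top.ne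
  have hvb : v ≤ min v₀ (η / (C + 1)) :=
    (measureReal_mono hsub hfin).trans (hb₁ _ (lt_min hε₁ hε₂) (min_le_left _ _))
  have hpos : 0 < v := by
    have hsub' : interior K \ L ⊆ K \ L := sdiff_subset_sdiff_left interior_subset
    refine lt_of_lt_of_le ?_ (measureReal_mono hsub' ((measure_mono sdiff_subset).trans_lt
      h.body.compact.measure_lt_top).ne)
    refine ENNReal.toReal_pos ((isOpen_interior.sdiff hL.compact.isClosed).measure_pos _ ?_).ne'
      ((measure_mono (sdiff_subset.trans interior_subset)).trans_lt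
        h.body.compact.measure_lt_top).ne
    obtain ⟨x₀, hx₀⟩ := h.body.int_ne
    by_contra hne
    rw [not_nonempty_iff_eq_empty, sdiff_eq_empty] at hne
    refine heL (closure_minimal hne hL.compact.isClosed ?_)
    rw [h.body.convex.closure_interior_eq_closure_of_nonempty_interior ⟨x₀, hx₀⟩]
    exact subset_closure he.1
  have hint : ∫ x in K \ L, sden p K x ≤ ((m : ℝ) + p - η) * v := by
    refine (setIntegral_mono_on ((h.body.integrableOn (continuous_sden h.pos.le K)).mono_set
      sdiff_subset) (integrableOn_const (C := (m : ℝ) + p - η) ((measure_mono sdiff_subset).trans_lt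
        h.body.compact.measure_lt_top).ne) (h.body.measurableSet.diff hL.measurableSet)
        fun x hx => ?_).trans_eq (by rw [setIntegral_const, smul_eq_mul, mul_comm])
    exact (hb₂ ((Metric.mem_ball.1 (hsub hx)).trans_le (min_le_right _ _))).le
  have := hcut L hL hLK (hvb.trans (min_le_left _ _))
  rw [← hv] at this
  have h1 : C * v ^ 2 ≤ C * (η / (C + 1)) * v := by
    rw [sq, ← mul_assoc]
    exact mul_le_mul_of_nonneg_right
      (mul_le_mul_of_nonneg_left (hvb.trans (min_le_right _ _)) hC) hpos.le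
  have h2 : C * (η / (C + 1)) < η := by
    rw [← mul_div_assoc, div_lt_iff₀ (by positivity)]
    nlinarith
  nlinarith

/-- The density is at least `n + p` at positively supported points. -/
theorem sden_face {K : Set (Fin m → ℝ)} (h : IsMin p K) {ν : Fin m → ℝ}
    (hν : ∀ i, 0 < ν i) {y : Fin m → ℝ} (hy : y ∈ K) (hy0 : y ≠ 0)
    (hsup : ∀ z ∈ K, ∑ i, ν i * z i ≤ ∑ i, ν i * y i) : (m : ℝ) + p ≤ sden p K y := by
  refine face_ge h.body ?_ ?_ (fun e he hm' he0 => h.sden_extreme he hm' he0) hν hy hy0 hsup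
  · exact h.body.compact.isClosed.inter (isClosed_le continuous_const (continuous_sden h.pos.le K))
  · refine ⟨h.body.convex, fun u hu v hv a b ha hb hab => ?_⟩
    simp only [sden, smul_eq_mul, Finset.mul_sum, ← Finset.sum_add_distrib]
    refine Finset.sum_le_sum fun j _ => ?_
    have := mul_le_mul_of_nonneg_left ((Real.concaveOn_rpow h.pos.le h.lt_one.le).2
      (h.body.nonneg u hu j) (h.body.nonneg v hv j) ha hb hab) (h.body.wt_pos h.pos.le j).le
    simp only [smul_eq_mul] at this
    simp only [Pi.add_apply, Pi.smul_apply, smul_eq_mul]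
    linarith

theorem gden_extreme {K : Set (Fin (k + 1) → ℝ)} (h : IsMin p K) (i : Fin (k + 1))
    {e : Fin k → ℝ} (he : e ∈ (sec i K).extremePoints ℝ) (hmax : ∀ z ∈ sec i K, e ≤ z → z = e)
    (he0 : e ≠ 0) : ((k + 1 : ℕ) : ℝ) + p ≤ gden p i K e := by
  rcases Nat.eq_zero_or_pos k with rfl | hk
  · exact absurd (Subsingleton.elim e 0) he0
  by_contra hlt
  rw [not_le] at hlt
  obtain ⟨C, v₀, hC, hv₀, hcut⟩ := h.cut
  set c : ℝ := ((k + 1 : ℕ) : ℝ) + p with hc
  set η := (c - gden p i K e) / 2 with hη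
  have hη0 : 0 < η := by simp only [hη]; linarith
  obtain ⟨δR, R, hδR, hδR', -, hout⟩ := h.body.exists_boxes
  have hR : 0 < R := hδR.trans_le hδR'
  obtain ⟨ε₁, hε₁, hb₁⟩ :=
    exists_volume_ball_le e hk (η := min v₀ (η / (C + 1)) / R)
      (div_pos (lt_min hv₀ (by positivity)) hR)
  have hcl := h.body.isClosed_gden_ge h.pos.le i (c - η)
  have heU : e ∉ {u | u ∈ sec i K ∧ c - η ≤ gden p i K u} := fun hu => by
    have := hu.2; simp only [hη] at this; linarith
  obtain ⟨ε₂, hε₂, hb₂⟩ := Metric.isOpen_iff.1 hcl.isOpen_compl e heU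
  have hCb := h.body.sec_body i
  obtain ⟨C', hC', hC'C, heC', hsub⟩ := exists_cut hCb he hmax he0 (lt_min hε₁ hε₂)
  set W := sec i K \ C' with hW
  have hWm : MeasurableSet W := hCb.measurableSet.diff hC'.measurableSet
  have hrn : Continuous fun x : Fin (k + 1) → ℝ => (i.removeNth x : Fin k → ℝ) :=
    continuous_pi fun j => continuous_apply _
  set L := K ∩ {x | i.removeNth x ∈ C'} with hL
  have hLb : OrthBody L := by
    refine ⟨h.body.compact.inter_right (hC'.compact.isClosed.preimage hrn), ?_,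
      fun x hx => h.body.nonneg x hx.1, ?_, ?_⟩
    · exact h.body.convex.inter
        (hC'.convex.is_linear_preimage ⟨fun x y => rfl, fun c x => rfl⟩)
    · rintro x ⟨hx, hxC⟩ y hy hyx
      exact ⟨h.body.down x hx y hy hyx,
        hC'.down _ hxC _ (fun j => hy _) fun j => hyx _⟩
    · obtain ⟨d, R', hd, -, hin, -⟩ := hC'.exists_boxes
      obtain ⟨d', R'', hd', -, hin', -⟩ := h.body.exists_boxes
      have hb := OrthBody.box_body (a := fun _ : Fin (k + 1) => min d d') fun _ => lt_min hd hd'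
      refine hb.int_ne.mono (interior_mono fun x hx => ⟨?_, hin ⟨fun j => hx.1 _, fun j => ?_⟩⟩)
      · exact hin' ⟨hx.1, fun j => (hx.2 j).trans (min_le_right _ _)⟩
      · exact (hx.2 _).trans (min_le_left _ _)
  have hdiff : K \ L = K ∩ {x | i.removeNth x ∈ W} := by
    ext x
    refine ⟨fun hx => ⟨hx.1, h.body.removeNth_mem hx.1 i, fun hc => hx.2 ⟨hx.1, hc⟩⟩,
      fun hx => ⟨hx.1, fun hc => hx.2.2 hc.2⟩⟩
  set v := volume.real (K \ L) with hv
  obtain ⟨hi1, he1⟩ := h.body.integral_fibres i hWm (f := fun _ => (1 : ℝ)) continuous_const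
  obtain ⟨hi2, he2⟩ := h.body.integral_fibres i hWm (continuous_sden h.pos.le K)
  have hWs : W ∩ sec i K = W := inter_eq_left.2 sdiff_subset
  simp only [intervalIntegral.integral_const, sub_zero, smul_eq_mul, mul_one, setIntegral_const,
    hWs, ← hdiff] at hi1 he1
  rw [hWs] at hi2 he2
  rw [← hdiff] at he2
  have hfinW : volume W ≠ ⊤ :=
    ((measure_mono sdiff_subset).trans_lt hCb.compact.measure_lt_top).ne
  have hvb : v ≤ min v₀ (η / (C + 1)) := by
    rw [hv, he1]
    have h2 : ∫ u in W, ell i K u ≤ volume.real W * R := by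
      refine (setIntegral_mono_on hi1 (integrableOn_const (C := R) hfinW) hWm fun u hu => ?_).trans_eq
        (by rw [setIntegral_const, smul_eq_mul])
      simpa using (hout (h.body.ell_mem hu.1)).2 i
    refine h2.trans ?_
    have h3 : volume.real W ≤ min v₀ (η / (C + 1)) / R :=
      (measureReal_mono hsub measure_ball_lt_top.ne).trans
        (hb₁ _ (lt_min hε₁ hε₂) (min_le_left _ _))
    calc volume.real W * R ≤ min v₀ (η / (C + 1)) / R * R := mul_le_mul_of_nonneg_right h3 hR.le
      _ = _ := div_mul_cancel₀ _ hR.ne'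
  have hpos : 0 < v := by
    have hsub' : interior K \ L ⊆ K \ L := sdiff_subset_sdiff_left interior_subset
    refine lt_of_lt_of_le ?_ (measureReal_mono hsub' ((measure_mono sdiff_subset).trans_lt
      h.body.compact.measure_lt_top).ne)
    refine ENNReal.toReal_pos ((isOpen_interior.sdiff hLb.compact.isClosed).measure_pos _ ?_).ne'
      ((measure_mono (sdiff_subset.trans interior_subset)).trans_lt
        h.body.compact.measure_lt_top).ne
    obtain ⟨x₀, hx₀⟩ := h.body.int_ne
    by_contra hne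
    rw [not_nonempty_iff_eq_empty, sdiff_eq_empty] at hne
    have hx : ins i 0 e ∈ K := he.1
    have hmem := closure_minimal hne hLb.compact.isClosed
      ((h.body.convex.closure_interior_eq_closure_of_nonempty_interior ⟨x₀, hx₀⟩).ge
        (subset_closure hx))
    exact heC' (by simpa using hmem.2)
  have hint : ∫ x in K \ L, sden p K x ≤ (c - η) * v := by
    rw [he2, hv, he1, ← integral_const_mul]
    refine setIntegral_mono_on hi2 (hi1.const_mul _) hWm fun u hu => ?_
    rw [h.body.integral_fibre_sden h.pos.le hu.1, mul_comm]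
    refine mul_le_mul_of_nonneg_right ?_ (h.body.ell_nonneg hu.1)
    have := hb₂ ((Metric.mem_ball.1 (hsub hu)).trans_le (min_le_right _ _))
    exact (not_le.1 fun hc => this ⟨hu.1, hc⟩).le
  have := hcut L hLb inter_subset_left (hvb.trans (min_le_left _ _))
  simp only [← hv] at this
  have h1 : C * v ^ 2 ≤ C * (η / (C + 1)) * v := by
    rw [sq, ← mul_assoc]
    exact mul_le_mul_of_nonneg_right
      (mul_le_mul_of_nonneg_left (hvb.trans (min_le_right _ _)) hC) hpos.le
  have h2 : C * (η / (C + 1)) < η := by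
    rw [← mul_div_assoc, div_lt_iff₀ (by positivity)]
    nlinarith
  nlinarith

theorem gden_face {K : Set (Fin (k + 1) → ℝ)} (h : IsMin p K) (i : Fin (k + 1))
    {ν : Fin k → ℝ} (hν : ∀ j, 0 < ν j) {y : Fin k → ℝ} (hy : y ∈ sec i K) (hy0 : y ≠ 0)
    (hsup : ∀ z ∈ sec i K, ∑ j, ν j * z j ≤ ∑ j, ν j * y j) :
    ((k + 1 : ℕ) : ℝ) + p ≤ gden p i K y :=
  face_ge (h.body.sec_body i) (h.body.isClosed_gden_ge h.pos.le i _)
    (h.body.gden_concave h.pos.le h.lt_one.le i) (fun _ he hm he0 => h.gden_extreme i he hm he0)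
    hν hy hy0 hsup

end IsMin

end Vale.P254.Min
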