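import Mathlib
import Vale.Agent.P254.Min.Ext

/-! A minimiser is the intersection of the cylinders over its coordinate sections. -/

namespace Vale.P254.Min

open MeasureTheory Set Vale.P254.U Filter
open scoped Pointwise Topology

variable {m k : ℕ} {p : ℝ}

theorem exists_support {K : Set (Fin m → ℝ)} (h : OrthBody K) {y : Fin m → ℝ} (hy : 0 ≤ y)
    (hg : gam K y = 1) :
    ∃ ν : Fin m → ℝ, 0 ≤ ν ∧ (∀ z ∈ K, ∑ i, ν i * z i ≤ ∑ i, ν i * y i) ∧
      0 < ∑ i, ν i * y i := by
  have hni : y ∉ interior (symm K) := fun hm => by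
    rw [← gauge_lt_one_iff_mem_interior h.convex_symm h.symm_nhds] at hm
    exact absurd hm (by rw [← gam, hg]; exact lt_irrefl 1)
  obtain ⟨f, hf⟩ := geometric_hahn_banach_open_point h.convex_symm.interior isOpen_interior hni
  have h0 : (0 : Fin m → ℝ) ∈ interior (symm K) := mem_interior_iff_mem_nhds.2 h.symm_nhds
  have hle : ∀ z ∈ symm K, f z ≤ f y := fun z hz => by
    have : z ∈ closure (interior (symm K)) := by
      rw [h.convex_symm.closure_interior_eq_closure_of_nonempty_interior ⟨0, h0⟩]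
      exact subset_closure hz
    exact closure_minimal (fun w hw => (hf w hw).le) (isClosed_le f.continuous continuous_const) this
  set a : Fin m → ℝ := fun i => f (Pi.single i 1) with ha
  have hfx : ∀ x : Fin m → ℝ, f x = ∑ i, a i * x i := fun x => by
    conv_lhs => rw [show x = ∑ i, x i • (Pi.single i 1 : Fin m → ℝ) from pi_eq_sum_univ' x]
    simp [ha, mul_comm]
  have hy' : f y ≤ ∑ i, |a i| * y i := by
    rw [hfx]
    exact Finset.sum_le_sum fun i _ => mul_le_mul_of_nonneg_right (le_abs_self _) (hy i)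
  refine ⟨fun i => |a i|, fun i => abs_nonneg _, fun z hz => ?_, ?_⟩
  · set z' : Fin m → ℝ := fun i => if a i < 0 then -z i else z i with hz'
    have : z' ∈ symm K := by
      show |z'| ∈ K
      convert hz using 1
      funext i
      simp only [Pi.abs_apply, hz']
      split_ifs <;> simp [abs_of_nonneg (h.nonneg z hz i)]
    refine le_trans (le_of_eq ?_) ((hle z' this).trans hy')
    rw [hfx]
    refine Finset.sum_congr rfl fun i _ => ?_
    simp only [hz']
    split_ifs with hi
    · rw [abs_of_neg hi]; ring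
    · rw [abs_of_nonneg (not_lt.1 hi)]
  · have := hf 0 h0
    rw [map_zero] at this
    exact this.trans_le hy'

/-- The intersection of the cylinders over the coordinate sections. -/
def hull (K : Set (Fin (k + 1) → ℝ)) : Set (Fin (k + 1) → ℝ) :=
  {x | 0 ≤ x ∧ ∀ i : Fin (k + 1), (i.removeNth x : Fin k → ℝ) ∈ sec i K}

theorem subset_hull {K : Set (Fin (k + 1) → ℝ)} (h : OrthBody K) : K ⊆ hull K :=
  fun x hx => ⟨h.nonneg x hx, fun i => h.removeNth_mem hx i⟩

theorem hull_body {K : Set (Fin (k + 1) → ℝ)} (h : OrthBody K) (hk : 1 ≤ k) :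
    OrthBody (hull K) := by
  have hrn : ∀ i : Fin (k + 1), Continuous fun x : Fin (k + 1) → ℝ => (i.removeNth x : Fin k → ℝ) :=
    fun i => continuous_pi fun j => continuous_apply _
  obtain ⟨δ, R, hδ, -, -, hout⟩ := h.exists_boxes
  refine ⟨?_, ?_, fun x hx => hx.1, ?_, h.int_ne.mono (interior_mono (subset_hull h))⟩
  · refine (isCompact_Icc (a := (0 : Fin (k + 1) → ℝ)) (b := fun _ => R)).of_isClosed_subset ?_ ?_
    · simp only [hull, ofPred_and, ofPred_forall]
      exact (isClosed_le continuous_const continuous_id).inter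
        (isClosed_iInter fun i => (h.sec_body i).compact.isClosed.preimage (hrn i))
    · intro x hx
      refine ⟨hx.1, fun j => ?_⟩
      obtain ⟨i, hij⟩ : ∃ i : Fin (k + 1), j ≠ i := by
        have : Nontrivial (Fin (k + 1)) := Fin.nontrivial_iff_two_le.2 (by omega)
        obtain ⟨i, hi⟩ := exists_ne j
        exact ⟨i, hi.symm⟩
      obtain ⟨l, rfl⟩ := Fin.exists_succAbove_eq hij
      simpa [Fin.removeNth] using (hout (hx.2 i)).2 (i.succAbove l)
  · rintro x ⟨hx, hx'⟩ y ⟨hy, hy'⟩ a b ha hb hab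
    exact ⟨add_nonneg (smul_nonneg ha hx) (smul_nonneg hb hy),
      fun i => (h.sec_body i).convex (hx' i) (hy' i) ha hb hab⟩
  · rintro x ⟨-, hx'⟩ y hy hyx
    exact ⟨hy, fun i => (h.sec_body i).down _ (hx' i) _ (fun j => hy _) fun j => hyx _⟩

namespace IsMin

variable {K : Set (Fin (k + 1) → ℝ)}

/-- The pointwise bound off the cylinders. -/
theorem sden_off (h : IsMin p K) (hk : 1 ≤ k) {x : Fin (k + 1) → ℝ} (hx : 0 ≤ x)
    (hlt : gam (hull K) x < gam K x) :
    (((k + 1 : ℕ) : ℝ) + p) * gam K x ^ p ≤ sden p K x := by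
  have hb := h.body
  have hH := hull_body hb hk
  have hg : 0 < gam K x := (OrthBody.gam_nonneg x).trans_lt hlt
  set y := (gam K x)⁻¹ • x with hy
  have hy0 : 0 ≤ y := smul_nonneg (inv_nonneg.2 hg.le) hx
  have hgy : gam K y = 1 := by
    rw [hy, OrthBody.gam_smul (inv_nonneg.2 hg.le), inv_mul_cancel₀ hg.ne']
  have hyK : y ∈ K := (hb.gam_le_one hy0).1 hgy.le
  have hHy : gam (hull K) y < 1 := by
    rw [hy, OrthBody.gam_smul (inv_nonneg.2 hg.le)]
    exact (inv_mul_lt_one₀ hg).2 hlt
  obtain ⟨ν, hν, hsup, hpos⟩ := exists_support hb hy0 hgy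
  have hν' : ∀ i, 0 < ν i := fun i => by
    refine (hν i).lt_of_ne' fun h0 => ?_
    obtain ⟨s, hs, hs1⟩ : ∃ s, gam (hull K) y < s ∧ s < 1 := exists_between hHy
    have hs0 : 0 < s := (OrthBody.gam_nonneg y).trans_lt hs
    have hmem := (hH.gam_le hy0 hs0).1 hs.le
    have := hsup _ (hmem.2 i)
    rw [Fin.sum_univ_succAbove _ i, Fin.sum_univ_succAbove (fun j => ν j * y j) i] at this
    simp only [h0, Pi.zero_apply, zero_mul, zero_add, Fin.insertNth_apply_succAbove, Fin.removeNth, Pi.smul_apply,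
      smul_eq_mul, mul_left_comm (ν _), ← Finset.mul_sum] at this
    simp only [Fin.sum_univ_succAbove _ i, h0, Pi.zero_apply, zero_mul, zero_add] at hpos
    have h1 : 1 < s⁻¹ := (one_lt_inv₀ hs0).2 hs1
    nlinarith
  have hyne : y ≠ 0 := fun e => by simp [e] at hpos
  have := h.sden_face hν' hyK hyne hsup
  have hxy : x = gam K x • y := by rw [hy, smul_inv_smul₀ hg.ne']
  calc (((k + 1 : ℕ) : ℝ) + p) * gam K x ^ p ≤ sden p K y * gam K x ^ p :=
        mul_le_mul_of_nonneg_right this (Real.rpow_nonneg hg.le p)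
    _ = sden p K x := by
        conv_rhs => rw [hxy, sden_smul K hg.le hy0]
        ring

theorem integrableOn_excess (h : IsMin p K) (Q : Set (Fin (k + 1) → ℝ)) :
    IntegrableOn (fun x => sden p K x - (((k + 1 : ℕ) : ℝ) + p) * gam K x ^ p) (Q ∩ K) :=
  (h.body.integrableOn_sden h.pos.le Q).sub ((h.body.integrableOn_gamp h.pos.le Q).const_mul _)

/-- A minimiser is an intersection of cylinders. -/
theorem eq_hull (h : IsMin p K) (hk : 1 ≤ k) : K = hull K := by
  have hb := h.body
  have hH := hull_body hb hk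
  set c : ℝ := ((k + 1 : ℕ) : ℝ) + p with hc
  set N : Set (Fin (k + 1) → ℝ) := {x | 0 ≤ x ∧ gam (hull K) x < gam K x} with hN
  set Q : Set (Fin (k + 1) → ℝ) := {x | 0 ≤ x ∧ gam (hull K) x = gam K x} with hQ
  have h0m : MeasurableSet {x : Fin (k + 1) → ℝ | 0 ≤ x} :=
    (isClosed_le continuous_const continuous_id).measurableSet
  have hNm : MeasurableSet N :=
    h0m.inter (isOpen_lt hH.continuous_gam hb.continuous_gam).measurableSet
  have hsplit : ({x : Fin (k + 1) → ℝ | 0 ≤ x}) ∩ K = (Q ∩ K) ∪ (N ∩ K) := by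
    ext x
    constructor
    · rintro ⟨hx, hxK⟩
      rcases (hb.gam_anti (subset_hull hb) x).eq_or_lt with he | he
      · exact Or.inl ⟨⟨hx, he⟩, hxK⟩
      · exact Or.inr ⟨⟨hx, he⟩, hxK⟩
    · rintro (⟨hx, hxK⟩ | ⟨hx, hxK⟩) <;> exact ⟨hx.1, hxK⟩
  have hzero := hb.phi_orth h.pos
  rw [Phi, hsplit, setIntegral_union (Set.disjoint_left.2 fun x hx hx' => hx'.1.2.ne hx.1.2)
    (hNm.inter hb.measurableSet) (h.integrableOn_excess Q) (h.integrableOn_excess N)] at hzero
  have hQ0 := h.phi_contact (by omega) hH (subset_hull hb)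
  rw [Phi] at hQ0
  have hNnn : 0 ≤ᵐ[volume.restrict (N ∩ K)] fun x => sden p K x - c * gam K x ^ p :=
    ae_restrict_of_forall_mem (hNm.inter hb.measurableSet) fun x hx =>
      sub_nonneg.2 (h.sden_off hk hx.1.1 hx.1.2)
  have hN0 : ∫ x in N ∩ K, (sden p K x - c * gam K x ^ p) = 0 :=
    le_antisymm (by linarith) (integral_nonneg_of_ae hNnn)
  have hae := (setIntegral_eq_zero_iff_of_nonneg_ae hNnn (h.integrableOn_excess N)).1 hN0
  have heq : ∀ x ∈ N, (∀ j, 0 < x j) → sden p K x = c * gam K x ^ p := by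
    intro x hx hx0
    have hg : 0 < gam K x := (OrthBody.gam_nonneg x).trans_lt hx.2
    set t := (2 * gam K x)⁻¹ with ht
    have ht0 : 0 < t := by positivity
    set z := t • x with hz
    set f := fun w => sden p K w - c * gam K w ^ p with hf
    have hfc : Continuous f := (continuous_sden h.pos.le K).sub
      ((hb.continuous_gam.rpow_const fun _ => Or.inr h.pos.le).const_mul c)
    set U := {w : Fin (k + 1) → ℝ | gam K w < 1} ∩ {w | gam (hull K) w < gam K w} ∩
      (univ.pi fun _ => Ioi 0) with hU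
    have hUo : IsOpen U := ((isOpen_lt hb.continuous_gam continuous_const).inter
      (isOpen_lt hH.continuous_gam hb.continuous_gam)).inter
        (isOpen_set_pi finite_univ fun _ _ => isOpen_Ioi)
    have hzU : z ∈ U := by
      refine ⟨⟨?_, ?_⟩, fun j _ => mul_pos ht0 (hx0 j)⟩
      · show gam K z < 1
        rw [hz, OrthBody.gam_smul ht0.le, ht]; field_simp; norm_num
      · show gam (hull K) z < gam K z
        rw [hz, OrthBody.gam_smul ht0.le, OrthBody.gam_smul ht0.le]
        exact mul_lt_mul_of_pos_left hx.2 ht0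
    have hUsub : U ⊆ N ∩ K := fun w hw => by
      have hw0 : 0 ≤ w := fun j => (hw.2 j (mem_univ j)).le
      exact ⟨⟨hw0, hw.1.2⟩, (hb.gam_le_one hw0).1 hw.1.1.le⟩
    have hfz : f z = 0 := by
      by_contra hne
      have hae' : f =ᵐ[volume.restrict U] 0 :=
        ae_mono (Measure.restrict_mono hUsub le_rfl) hae
      exact hne (Measure.eqOn_open_of_ae_eq hae' hUo hfc.continuousOn
        continuous_const.continuousOn hzU)
    simp only [hf, hz, sden_smul K ht0.le hx.1, OrthBody.gam_smul ht0.le,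
      Real.mul_rpow ht0.le hg.le] at hfz
    have htp : 0 < t ^ p := Real.rpow_pos_of_pos ht0 p
    nlinarith
  by_contra hne
  obtain ⟨w₀, hw₀, hw₀K⟩ := not_subset.1 fun hsub : hull K ⊆ K =>
    hne (Subset.antisymm (subset_hull hb) hsub)
  have hopen : IsOpen Kᶜ := hb.compact.isClosed.isOpen_compl
  obtain ⟨w, hwi, hwK⟩ : ∃ w ∈ interior (hull K), w ∉ K := by
    by_contra hall
    push Not at hall
    refine hw₀K (closure_minimal hall hb.compact.isClosed ?_)
    rw [hH.convex.closure_interior_eq_closure_of_nonempty_interior hH.int_ne]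
    exact subset_closure hw₀
  have hwpos : ∀ j, 0 < w j := fun j => by
    have h1 : w ∈ interior {x : Fin (k + 1) → ℝ | 0 ≤ x} :=
      interior_mono (fun x hx => hx.1) hwi
    rw [show {x : Fin (k + 1) → ℝ | 0 ≤ x} = univ.pi fun _ => Ici 0 from by
      ext x; simp [Pi.le_def], interior_pi_set finite_univ] at h1
    simpa using h1 j (mem_univ j)
  have hw0 : 0 ≤ w := fun j => (hwpos j).le
  have hgw : gam (hull K) w < gam K w :=
    lt_of_le_of_lt ((hH.gam_le_one hw0).2 (interior_subset hwi))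
      (not_le.1 fun hc => hwK ((hb.gam_le_one hw0).1 hc))
  obtain ⟨r, hr, hball⟩ := Metric.isOpen_iff.1
    (((isOpen_lt hH.continuous_gam hb.continuous_gam)).inter
      (isOpen_set_pi finite_univ fun (_ : Fin (k + 1)) _ => isOpen_Ioi (a := (0 : ℝ)))) w
    ⟨hgw, fun j _ => hwpos j⟩
  set w' := Function.update w 0 (w 0 + r / 2) with hw'
  have hw'b : w' ∈ Metric.ball w r := by
    rw [Metric.mem_ball, dist_eq_norm]
    refine ((pi_norm_le_iff_of_nonneg (by linarith)).2 fun j => ?_).trans_lt (half_lt_self hr)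
    rcases eq_or_ne j 0 with rfl | hj
    · simp [hw', abs_of_pos hr]
    · simp [hw', hj]; linarith
  have mkN : ∀ u, u ∈ Metric.ball w r → ∀ s : ℝ, 0 < s →
      (s • u ∈ N ∧ ∀ j, 0 < (s • u) j) := fun u hu s hs => by
    obtain ⟨h1, h2⟩ := hball hu
    refine ⟨⟨fun j => (mul_pos hs (h2 j (mem_univ j))).le, ?_⟩,
      fun j => mul_pos hs (h2 j (mem_univ j))⟩
    rw [OrthBody.gam_smul hs.le, OrthBody.gam_smul hs.le]
    exact mul_lt_mul_of_pos_left h1 hs
  have hg : 0 < gam K w := (OrthBody.gam_nonneg w).trans_lt hgw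
  have hg' : 0 < gam K w' := (OrthBody.gam_nonneg w').trans_lt (hball hw'b).1
  set a := (gam K w)⁻¹ with ha
  set b := (gam K w')⁻¹ with hb'
  have ha0 : 0 < a := inv_pos.2 hg
  have hb0 : 0 < b := inv_pos.2 hg'
  have hga : gam K (a • w) = 1 := by rw [OrthBody.gam_smul ha0.le, ha, inv_mul_cancel₀ hg.ne']
  have hgb : gam K (b • w') = 1 := by rw [OrthBody.gam_smul hb0.le, hb', inv_mul_cancel₀ hg'.ne']
  obtain ⟨hyN, hy0⟩ := mkN w (Metric.mem_ball_self hr) a ha0
  obtain ⟨hy'N, hy'0⟩ := mkN w' hw'b b hb0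
  have hsy := heq _ hyN hy0
  have hsy' := heq _ hy'N hy'0
  rw [hga, Real.one_rpow, mul_one] at hsy
  rw [hgb, Real.one_rpow, mul_one] at hsy'
  set mid := (1 / 2 : ℝ) • (a • w) + (1 / 2 : ℝ) • (b • w') with hmid
  have hu : (a / (a + b)) • w + (b / (a + b)) • w' ∈ Metric.ball w r :=
    convex_ball w r (Metric.mem_ball_self hr) hw'b (by positivity) (by positivity) (by field_simp)
  have hmeq : ((a + b) / 2) • ((a / (a + b)) • w + (b / (a + b)) • w') = mid := by
    rw [hmid, smul_add, smul_smul, smul_smul, smul_smul, smul_smul]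
    congr 2 <;> field_simp
  obtain ⟨hmN, hm0⟩ := mkN _ hu ((a + b) / 2) (by positivity)
  rw [hmeq] at hmN hm0
  have hgm : gam K mid ≤ 1 := (hb.gam_le_one hmN.1).2
    (hb.convex ((hb.gam_le_one hyN.1).1 hga.le) ((hb.gam_le_one hy'N.1).1 hgb.le)
      (by norm_num) (by norm_num) (by norm_num))
  have hsm := heq mid hmN hm0
  have hle : sden p K mid ≤ c := by
    rw [hsm]
    exact mul_le_of_le_one_right (by simp only [hc]; linarith [h.pos, Nat.cast_nonneg (α := ℝ) (k + 1)])
      (Real.rpow_le_one (OrthBody.gam_nonneg mid) hgm h.pos.le)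
  obtain ⟨j₁, hj₁⟩ : ∃ j, (a • w) j ≠ (b • w') j := by
    by_contra hall
    push Not at hall
    have h1 := hall 0
    have h2 := hall (Fin.last k)
    have hne : (Fin.last k : Fin (k + 1)) ≠ 0 := by
      intro e; have := congrArg Fin.val e; simp at this; omega
    simp only [Pi.smul_apply, smul_eq_mul, hw', Function.update_self,
      Function.update_of_ne hne] at h1 h2
    have hab : a = b := mul_right_cancel₀ (hwpos _).ne' h2
    rw [hab] at h1
    have := mul_left_cancel₀ hb0.ne' h1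
    linarith
  have hstrict : 1 / 2 * sden p K (a • w) + 1 / 2 * sden p K (b • w') < sden p K mid := by
    simp only [sden, Finset.mul_sum, ← Finset.sum_add_distrib]
    refine Finset.sum_lt_sum (fun j _ => ?_) ⟨j₁, Finset.mem_univ _, ?_⟩
    · have := mul_le_mul_of_nonneg_left ((Real.concaveOn_rpow h.pos.le h.lt_one.le).2
        (hyN.1 j) (hy'N.1 j) (show (0 : ℝ) ≤ 1 / 2 by norm_num) (show (0 : ℝ) ≤ 1 / 2 by norm_num)
        (by norm_num)) (hb.wt_pos h.pos.le j).le
      simp only [smul_eq_mul] at this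
      simp only [hmid, Pi.add_apply, Pi.smul_apply, smul_eq_mul] at this ⊢
      linarith
    · have := mul_lt_mul_of_pos_left ((Real.strictConcaveOn_rpow h.pos h.lt_one).2
        (hyN.1 j₁) (hy'N.1 j₁) hj₁ (show (0 : ℝ) < 1 / 2 by norm_num)
        (show (0 : ℝ) < 1 / 2 by norm_num) (by norm_num)) (hb.wt_pos h.pos.le j₁)
      simp only [smul_eq_mul] at this
      simp only [hmid, Pi.add_apply, Pi.smul_apply, smul_eq_mul] at this ⊢
      linarith
  linarith

end IsMin

end Vale.P254.Min
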