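import Mathlib
import Vale.Agent.P254.Min.Hull
import Vale.Agent.P254.Min.Exist

/-! Boundary curves of the sections of a three-dimensional minimiser. -/

namespace Vale.P254.Min

open MeasureTheory Set Vale.P254.U Filter
open scoped Pointwise Topology

variable {p : ℝ}

/-- The width in direction `i`. -/
noncomputable def wid {k : ℕ} (K : Set (Fin (k + 1) → ℝ)) (i : Fin (k + 1)) : ℝ := ell i K 0

/-- The open part of the boundary of a section. -/
def arc (K : Set (Fin 3 → ℝ)) (i : Fin 3) : Set (Fin 2 → ℝ) :=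
  {y | y ∈ sec i K ∧ gam (sec i K) y = 1 ∧ ∀ j, y j < wid K (i.succAbove j)}

end Vale.P254.Min

namespace Vale.P254.U.OrthBody

open MeasureTheory Set Vale.P254.Min Filter
open scoped Pointwise Topology

variable {k : ℕ} {K : Set (Fin (k + 1) → ℝ)}

theorem wid_le (h : OrthBody K) {x : Fin (k + 1) → ℝ} (hx : x ∈ K) (i : Fin (k + 1)) :
    x i ≤ wid K i := by
  refine le_trans ?_ (h.ell_anti (h.removeNth_mem hx i) le_rfl fun j => h.nonneg x hx _)
  refine le_csSup (h.fibre_bdd i _) ?_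
  show ins i (x i) (i.removeNth x) ∈ K
  rw [show ins i (x i) (i.removeNth x) = x from Fin.insertNth_self_removeNth i x]
  exact hx

theorem wid_pos (h : OrthBody K) (i : Fin (k + 1)) : 0 < wid K i := by
  obtain ⟨δ, R, hδ, -, hin, -⟩ := h.exists_boxes
  exact hδ.trans_le (h.wid_le (hin ⟨fun _ => hδ.le, le_rfl⟩) i)

theorem axis_mem (h : OrthBody K) (i : Fin (k + 1)) : ins i (wid K i) 0 ∈ K := by
  refine h.ell_mem ?_
  show ins i 0 (0 : Fin k → ℝ) ∈ K
  convert h.zero_mem using 1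
  funext j
  rcases Fin.eq_self_or_eq_succAbove i j with rfl | ⟨l, rfl⟩ <;> simp

theorem single_mem_sec (h : OrthBody K) (i : Fin (k + 1)) (j : Fin k) :
    (Pi.single j (wid K (i.succAbove j)) : Fin k → ℝ) ∈ sec i K := by
  refine h.down _ (h.axis_mem (i.succAbove j)) _
    (insertNth_nonneg le_rfl (Pi.single_nonneg.2 (h.wid_pos _).le)) fun m => ?_
  rcases Fin.eq_self_or_eq_succAbove i m with rfl | ⟨l, rfl⟩
  · simpa using insertNth_nonneg (h.wid_pos _).le (le_refl (0 : Fin k → ℝ)) m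
  · rcases eq_or_ne l j with rfl | hl
    · simp
    · obtain ⟨q, hq⟩ := Fin.exists_succAbove_eq
        (Fin.succAbove_right_injective.ne hl : i.succAbove l ≠ i.succAbove j)
      rw [← hq]
      simp [hq, Pi.single_eq_of_ne hl]
      rw [← hq]
      simp

end Vale.P254.U.OrthBody

namespace Vale.P254.Min

open MeasureTheory Set Vale.P254.U Filter
open scoped Pointwise Topology

variable {p : ℝ} {K : Set (Fin 3 → ℝ)}

theorem arc_support (h : OrthBody K) {i : Fin 3} {y : Fin 2 → ℝ} (hy : y ∈ arc K i) :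
    ∃ ν : Fin 2 → ℝ, (∀ j, 0 < ν j) ∧
      ∀ z ∈ sec i K, ∑ j, ν j * z j ≤ ∑ j, ν j * y j := by
  have hy0 := (h.sec_body i).nonneg y hy.1
  obtain ⟨ν, hν, hsup, hpos⟩ := exists_support (h.sec_body i) hy0 hy.2.1
  refine ⟨ν, fun j => (hν j).lt_of_ne' fun h0 => ?_, hsup⟩
  rw [Pi.zero_apply] at h0
  have hne : ∀ l : Fin 2, l ≠ j → False := fun l hl => by
    have hs := hsup _ (h.single_mem_sec i l)
    have e : ∀ z : Fin 2 → ℝ, ∑ q, ν q * z q = ν l * z l := fun z =>
      Finset.sum_eq_single l (fun q _ hq => by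
        have : q = j := by omega
        rw [this, h0, zero_mul]) fun hn => absurd (Finset.mem_univ l) hn
    rw [e, e, Pi.single_eq_same] at hs
    rw [e] at hpos
    have : 0 < ν l := (hν l).lt_of_ne' fun hl0 => by simp [hl0] at hpos
    nlinarith [hy.2.2 l]
  rcases Fin.exists_fin_two.1 ⟨j, rfl⟩ with rfl | rfl
  · exact hne 1 (by decide)
  · exact hne 0 (by decide)

theorem arc_maximal (h : OrthBody K) {i : Fin 3} {y : Fin 2 → ℝ} (hy : y ∈ arc K i)
    {z : Fin 2 → ℝ} (hz : z ∈ sec i K) (hyz : y ≤ z) : z = y := by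
  obtain ⟨ν, hν, hsup⟩ := arc_support h hy
  funext j
  refine le_antisymm ?_ (hyz j)
  by_contra hc
  have : ∑ l, ν l * y l < ∑ l, ν l * z l :=
    Finset.sum_lt_sum (fun l _ => mul_le_mul_of_nonneg_left (hyz l) (hν l).le)
      ⟨j, Finset.mem_univ j, mul_lt_mul_of_pos_left (lt_of_not_ge hc) (hν j)⟩
  linarith [hsup z hz]

theorem arc_ne_zero (h : OrthBody K) {i : Fin 3} {y : Fin 2 → ℝ} (hy : y ∈ arc K i) : y ≠ 0 := by
  intro e
  have := arc_maximal h hy (h.single_mem_sec i 0)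
    (e ▸ Pi.single_nonneg.2 (h.wid_pos _).le)
  have h1 := congrFun this 0
  rw [e, Pi.single_eq_same, Pi.zero_apply] at h1
  exact (h.wid_pos _).ne' h1

theorem gden_arc_ge (h : IsMin p K) {i : Fin 3} {y : Fin 2 → ℝ} (hy : y ∈ arc K i) :
    ((3 : ℕ) : ℝ) + p ≤ gden p i K y := by
  obtain ⟨ν, hν, hsup⟩ := arc_support h.body hy
  exact h.gden_face (k := 2) i hν hy.1 (arc_ne_zero h.body hy) hsup

theorem mem_iff_sec (h : OrthBody K) (hK : K = hull K) (i : Fin 3) {t : ℝ} (ht : 0 ≤ t)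
    {u : Fin 2 → ℝ} (hu : u ∈ sec i K) :
    ins i t u ∈ K ↔ ∀ j, (i.succAbove j).removeNth (ins i t u) ∈ sec (i.succAbove j) K := by
  refine ⟨fun hx j => h.removeNth_mem hx _, fun hall => ?_⟩
  rw [hK]
  refine ⟨insertNth_nonneg ht ((h.sec_body i).nonneg u hu), fun l => ?_⟩
  rcases Fin.eq_self_or_eq_succAbove i l with rfl | ⟨j, rfl⟩
  · simpa using hu
  · exact hall j

theorem removeNth_ins_le {i : Fin 3} {j : Fin 2} {t t' : ℝ} {u u' : Fin 2 → ℝ} (ht : t ≤ t')
    (hu : ∀ q, q ≠ j → u q ≤ u' q) :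
    ((i.succAbove j).removeNth (ins i t u) : Fin 2 → ℝ) ≤
      (i.succAbove j).removeNth (ins i t' u') := by
  intro m
  simp only [Fin.removeNth]
  rcases Fin.eq_self_or_eq_succAbove i ((i.succAbove j).succAbove m) with e | ⟨q, hq⟩
  · rw [e]; simpa using ht
  · rw [hq]
    simp only [ins, Fin.insertNth_apply_succAbove]
    exact hu q fun e => Fin.succAbove_ne (i.succAbove j) m (by rw [hq, e])

/-- A lower bound for the fibre length, from convexity in each coordinate. -/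
theorem ell_ge (h : OrthBody K) (hK : K = hull K) {i : Fin 3} {y u : Fin 2 → ℝ}
    (hy : y ∈ sec i K) (hu : u ∈ sec i K) {θ : ℝ} (hθ0 : 0 ≤ θ) (hθ1 : θ ≤ 1)
    (hle : ∀ j, u j ≤ (1 - θ) * y j + θ * wid K (i.succAbove j)) :
    (1 - θ) * ell i K y ≤ ell i K u := by
  refine le_csSup (h.fibre_bdd i u) ?_
  show ins i _ u ∈ K
  have hu0 := (h.sec_body i).nonneg u hu
  have ht : 0 ≤ (1 - θ) * ell i K y := mul_nonneg (by linarith) (h.ell_nonneg hy)
  refine (mem_iff_sec h hK i ht hu).2 fun j => ?_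
  set l := i.succAbove j with hl
  have hz1 := h.removeNth_mem (h.ell_mem hy) l
  obtain ⟨q, hq⟩ : ∃ q : Fin 2, q ≠ j := exists_ne j
  have hz2 := h.removeNth_mem (h.axis_mem (i.succAbove q)) l
  have hcomb := (h.sec_body l).convex hz1 hz2 (show (0 : ℝ) ≤ 1 - θ by linarith) hθ0 (by ring)
  refine (h.sec_body l).down _ hcomb _ (fun m => insertNth_nonneg ht hu0 _) fun m => ?_
  simp only [Fin.removeNth, Pi.add_apply, Pi.smul_apply, smul_eq_mul]
  rcases Fin.eq_self_or_eq_succAbove i (l.succAbove m) with e | ⟨r, hr⟩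
  · rw [e]
    have : 0 ≤ ins (i.succAbove q) (wid K (i.succAbove q)) 0 i :=
      insertNth_nonneg (h.wid_pos _).le (le_refl (0 : Fin 2 → ℝ)) i
    simp only [ins, Fin.insertNth_apply_same] at this ⊢
    nlinarith
  · rw [hr]
    have hrj : r ≠ j := fun e => Fin.succAbove_ne l m (by rw [hr, e, hl])
    have hrq : r = q := by omega
    subst hrq
    simpa using hle r

theorem ell_pos (h : OrthBody K) (hK : K = hull K) {i : Fin 3} {y : Fin 2 → ℝ}
    (hy : y ∈ arc K i) : 0 < ell i K y := by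
  have h0 : (0 : Fin 2 → ℝ) ∈ sec i K := (h.sec_body i).zero_mem
  set θ := max (y 0 / wid K (i.succAbove 0)) (y 1 / wid K (i.succAbove 1)) with hθ
  have hθ1 : θ < 1 := max_lt ((div_lt_one (h.wid_pos _)).2 (hy.2.2 0))
    ((div_lt_one (h.wid_pos _)).2 (hy.2.2 1))
  have hθ0 : 0 ≤ θ :=
    le_max_of_le_left (div_nonneg ((h.sec_body i).nonneg y hy.1 0) (h.wid_pos _).le)
  refine lt_of_lt_of_le (mul_pos (show 0 < 1 - θ by linarith) (h.wid_pos i)) ?_
  refine ell_ge h hK h0 hy.1 hθ0 hθ1.le fun j => ?_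
  rw [Pi.zero_apply, mul_zero, zero_add, ← div_le_iff₀ (h.wid_pos _)]
  fin_cases j
  · exact le_max_left _ _
  · exact le_max_right _ _

end Vale.P254.Min
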