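import Mathlib
import Vale.Agent.P254.Min.Plane

/-! The excess vanishes on every arc. -/

namespace Vale.P254.Min

open MeasureTheory Set Vale.P254.U Filter
open scoped Pointwise Topology

variable {p : ℝ} {K : Set (Fin 3 → ℝ)}

/-- The cone over the top in direction `i`. -/
def topCone (K : Set (Fin 3 → ℝ)) (i : Fin 3) : Set (Fin 3 → ℝ) :=
  {x | 0 ≤ x ∧ x i = wid K i * gam K x}

/-- The cone over the arc of the section `i`. -/
def sideCone (K : Set (Fin 3 → ℝ)) (i : Fin 3) : Set (Fin 3 → ℝ) :=
  {x | 0 ≤ x ∧ gam (sec i K) (i.removeNth x) = gam K x ∧ ∀ j, x j < wid K j * gam K x}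

theorem phi_top (h : IsMin p K) (i : Fin 3) : 0 ≤ Phi p K (topCone K i) := by
  have hb := h.body
  set b : Fin 3 → ℝ := Function.update (fun j => 2 * wid K j) i (wid K i) with hbdef
  have hb0 : ∀ j, 0 < b j := fun j => by
    rcases eq_or_ne j i with rfl | hj
    · simpa [hbdef] using hb.wid_pos _
    · simp [hbdef, hj, hb.wid_pos]
  have hC := OrthBody.box_body hb0
  have hKC : K ⊆ Icc (0 : Fin 3 → ℝ) b := fun x hx => ⟨hb.nonneg x hx, fun j => by
    rcases eq_or_ne j i with rfl | hj
    · simpa [hbdef] using hb.wid_le hx _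
    · simp [hbdef, hj]; linarith [hb.wid_le hx j, hb.wid_pos j]⟩
  have e : {x | 0 ≤ x ∧ gam (Icc (0 : Fin 3 → ℝ) b) x = gam K x} = topCone K i := by
    ext x
    refine and_congr_right fun hx => ?_
    rcases eq_or_ne x 0 with rfl | hx0
    · simp [gam]
    have hg := hb.gam_pos hx0
    have hle : ∀ j, x j ≤ wid K j * gam K x := fun j => by
      have := hb.wid_le ((hb.gam_le hx hg).1 le_rfl) j
      rwa [Pi.smul_apply, smul_eq_mul, inv_mul_le_iff₀ hg, mul_comm] at this
    constructor
    · intro he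
      refine le_antisymm (hle i) ?_
      by_contra hc
      set s := max (gam K x / 2) (x i / wid K i) with hs
      have hs1 : s < gam K x := max_lt (by linarith) (by
        rw [div_lt_iff₀ (hb.wid_pos i), mul_comm]; exact lt_of_not_ge hc)
      have hs0 : 0 < s := lt_max_of_lt_left (by linarith)
      have : gam (Icc (0 : Fin 3 → ℝ) b) x ≤ s := (hC.gam_le hx hs0).2
        ⟨smul_nonneg (inv_nonneg.2 hs0.le) hx, fun j => by
          rw [Pi.smul_apply, smul_eq_mul, inv_mul_le_iff₀ hs0]
          rcases eq_or_ne j i with rfl | hj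
          · simp only [hbdef, Function.update_self]
            rw [← div_le_iff₀ (hb.wid_pos _)]
            exact le_max_right _ _
          · simp only [hbdef, Function.update_of_ne hj]
            have h2 : gam K x / 2 ≤ s := le_max_left _ _
            nlinarith [hle j, hb.wid_pos j]⟩
      linarith
    · intro he
      refine le_antisymm (hb.gam_anti hKC x) ?_
      by_contra hc
      obtain ⟨s, hs1, hs2⟩ := exists_between (not_le.1 hc)
      have hs0 : 0 < s := (OrthBody.gam_nonneg x).trans_lt hs1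
      have := ((hC.gam_le hx hs0).1 hs1.le).2 i
      rw [Pi.smul_apply, smul_eq_mul, inv_mul_le_iff₀ hs0, hbdef, Function.update_self, he] at this
      nlinarith [hb.wid_pos i]
  have := h.phi_contact (by norm_num) hC hKC
  rwa [e] at this

theorem gam_sec_le (h : OrthBody K) {x : Fin 3 → ℝ} (hx : 0 ≤ x) (i : Fin 3) :
    gam (sec i K) (i.removeNth x) ≤ gam K x := by
  refine le_of_forall_gt_imp_ge_of_dense fun t ht => ?_
  have ht0 : 0 < t := (OrthBody.gam_nonneg x).trans_lt ht
  exact ((h.sec_body i).gam_le (fun j => hx _) ht0).2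
    (h.removeNth_mem ((h.gam_le hx ht0).1 ht.le) i)

theorem exists_side (h : OrthBody K) (hK : K = hull K) {x : Fin 3 → ℝ} (hx : 0 ≤ x)
    (_hx0 : x ≠ 0) : ∃ i, gam (sec i K) (i.removeNth x) = gam K x := by
  by_contra hall
  push Not at hall
  obtain ⟨i₀, -, hi₀⟩ := Finset.exists_max_image Finset.univ
    (fun i => gam (sec i K) (i.removeNth x)) ⟨0, Finset.mem_univ _⟩
  obtain ⟨s, hs1, hs2⟩ := exists_between ((gam_sec_le h hx i₀).lt_of_ne (hall i₀))
  have hs0 : 0 < s := (OrthBody.gam_nonneg _).trans_lt hs1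
  have : gam K x ≤ s := (h.gam_le hx hs0).2 <| by
    rw [hK]
    exact ⟨smul_nonneg (inv_nonneg.2 hs0.le) hx, fun i =>
      ((h.sec_body i).gam_le (fun j => hx _) hs0).1 ((hi₀ i (Finset.mem_univ i)).trans hs1.le)⟩
  linarith

theorem isCone_top (K : Set (Fin 3 → ℝ)) (i : Fin 3) : IsCone (topCone K i) := fun x hx t ht =>
  ⟨smul_nonneg ht.le hx.1, by
    rw [OrthBody.gam_smul ht.le, Pi.smul_apply, smul_eq_mul, hx.2]; ring⟩

theorem measurableSet_top (h : OrthBody K) (i : Fin 3) : MeasurableSet (topCone K i) :=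
  (isClosed_le continuous_const continuous_id).measurableSet.inter
    (isClosed_eq (continuous_apply i) (h.continuous_gam.const_mul _)).measurableSet

theorem measurableSet_side (h : OrthBody K) (i : Fin 3) : MeasurableSet (sideCone K i) := by
  simp only [sideCone, ofPred_and, ofPred_forall]
  exact (isClosed_le continuous_const continuous_id).measurableSet.inter
    ((isClosed_eq ((h.sec_body i).continuous_gam.comp (continuous_pi fun j => continuous_apply _))
      h.continuous_gam).measurableSet.inter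
      (MeasurableSet.iInter fun j =>
        (isOpen_lt (continuous_apply j) (h.continuous_gam.const_mul _)).measurableSet))

theorem volume_top_inter (h : OrthBody K) {i j : Fin 3} (hij : i ≠ j) :
    volume (topCone K i ∩ topCone K j) = 0 := by
  set l : (Fin 3 → ℝ) →ₗ[ℝ] ℝ := wid K j • LinearMap.proj i - wid K i • LinearMap.proj j with hl
  refine measure_mono_null (t := (LinearMap.ker l : Set (Fin 3 → ℝ))) (fun x hx => ?_) ?_
  · simp only [SetLike.mem_coe, LinearMap.mem_ker, hl, LinearMap.sub_apply, LinearMap.smul_apply,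
      LinearMap.proj_apply, smul_eq_mul, hx.1.2, hx.2.2]
    ring
  · refine Measure.addHaar_submodule volume _ fun htop => ?_
    have : (Pi.single i 1 : Fin 3 → ℝ) ∈ LinearMap.ker l := by rw [htop]; trivial
    simp [hl, hij.symm, (h.wid_pos j).ne'] at this

/-- The point of the arc below a point of a side cone. -/
theorem side_arc (h : OrthBody K) {i : Fin 3} {x : Fin 3 → ℝ} (hx : x ∈ sideCone K i) :
    0 < gam K x ∧ (gam K x)⁻¹ • (i.removeNth x : Fin 2 → ℝ) ∈ arc K i := by
  have hg : 0 < gam K x := by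
    refine (OrthBody.gam_nonneg x).lt_of_ne' fun h0 => ?_
    have := hx.2.2 i
    rw [h0, mul_zero] at this
    linarith [hx.1 i, show (0 : Fin 3 → ℝ) i = 0 from rfl]
  refine ⟨hg, ⟨((h.sec_body i).gam_le (fun j => hx.1 _) hg).1 hx.2.1.le, ?_, fun j => ?_⟩⟩
  · rw [OrthBody.gam_smul (inv_nonneg.2 hg.le), hx.2.1, inv_mul_cancel₀ hg.ne']
  · rw [Pi.smul_apply, smul_eq_mul, inv_mul_lt_iff₀ hg, mul_comm]
    exact hx.2.2 _

theorem ins_removeNth (i : Fin 3) (x : Fin 3 → ℝ) : ins i (x i) (i.removeNth x) = x :=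
  Fin.insertNth_self_removeNth i x

theorem side_unique (h : OrthBody K) {a b : Fin 3} (hab : a ≠ b) {u : Fin 2 → ℝ} {t : ℝ}
    (ht : ins a t u ∈ sideCone K a ∩ sideCone K b) :
    t = gam (sec a K) u * ell a K ((gam (sec a K) u)⁻¹ • u) := by
  set x := ins a t u with hxdef
  obtain ⟨hg, hya⟩ := side_arc h ht.1
  obtain ⟨-, hyb⟩ := side_arc h ht.2
  have hu : (a.removeNth x : Fin 2 → ℝ) = u := by simp [hxdef]
  have hga : gam (sec a K) u = gam K x := by rw [← hu]; exact ht.1.2.1
  rw [hga]
  set g := gam K x with hgdef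
  rw [hu] at hya
  set y := g⁻¹ • u with hy
  set z := ins a (ell a K y) y with hz
  have hzK : z ∈ K := h.ell_mem hya.1
  have hxz : (g⁻¹ • x) ≤ z := fun j => by
    rcases Fin.eq_self_or_eq_succAbove a j with rfl | ⟨l, rfl⟩
    · simp only [Pi.smul_apply, smul_eq_mul, hz, ins, Fin.insertNth_apply_same]
      refine le_csSup (h.fibre_bdd j _) ?_
      show ins j _ y ∈ K
      have hmem := (h.gam_le ht.1.1 hg).1 le_rfl
      convert hmem using 1
      funext q
      rcases Fin.eq_self_or_eq_succAbove j q with rfl | ⟨l, rfl⟩ <;> simp [hy, hxdef]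
    · simp [hz, hy, hxdef]
  have hmax := arc_maximal h hyb (h.removeNth_mem hzK b) fun m => by
    have := hxz (b.succAbove m)
    simpa [Fin.removeNth] using this
  obtain ⟨m, hm⟩ := Fin.exists_succAbove_eq hab
  have := congrFun hmax m
  simp only [Fin.removeNth, Pi.smul_apply, smul_eq_mul, hm, hz, hxdef, ins,
    Fin.insertNth_apply_same] at this
  rw [this, mul_inv_cancel_left₀ hg.ne']

theorem volume_side_inter (h : OrthBody K) {a b : Fin 3} (hab : a ≠ b) :
    volume (sideCone K a ∩ sideCone K b) = 0 := by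
  set S := sideCone K a ∩ sideCone K b with hS
  have hSm : MeasurableSet S := (measurableSet_side h a).inter (measurableSet_side h b)
  set e : (Fin 3 → ℝ) ≃ᵐ ℝ × (Fin 2 → ℝ) := MeasurableEquiv.piFinSuccAbove (fun _ => ℝ) a
  have hp : MeasurePreserving e.symm (volume : Measure (ℝ × (Fin 2 → ℝ))) volume :=
    (volume_preserving_piFinSuccAbove (fun _ : Fin 3 => ℝ) a).symm
  have hc : ∀ q : ℝ × (Fin 2 → ℝ), e.symm q = ins a q.1 q.2 := fun q => by
    simp [e, MeasurableEquiv.piFinSuccAbove, Fin.insertNthEquiv]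
  rw [← hp.measure_preimage hSm.nullMeasurableSet, Measure.volume_eq_prod,
    Measure.prod_apply_symm (e.symm.measurable hSm)]
  refine lintegral_eq_zero_of_ae_eq_zero (Eventually.of_forall fun u => ?_)
  refine (Set.Subsingleton.measure_zero ?_ volume)
  intro t ht t' ht'
  simp only [mem_preimage, hc] at ht ht'
  rw [side_unique h hab ht, side_unique h hab ht']

/-- The base of a side cone. -/
def base (K : Set (Fin 3 → ℝ)) (i : Fin 3) : Set (Fin 2 → ℝ) :=
  {u | u ∈ sec i K ∧ ∀ j, u j < wid K (i.succAbove j) * gam (sec i K) u}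

/-- The closure of a side cone inside the body, up to a null set. -/
def sideSet (K : Set (Fin 3 → ℝ)) (i : Fin 3) : Set (Fin 3 → ℝ) :=
  {x | x ∈ K ∧ (i.removeNth x : Fin 2 → ℝ) ∈ base K i ∧
    gam (sec i K) (i.removeNth x) = gam K x}

theorem measurableSet_base (h : OrthBody K) (i : Fin 3) : MeasurableSet (base K i) := by
  simp only [base, ofPred_and, ofPred_forall]
  exact (h.sec_body i).measurableSet.inter (MeasurableSet.iInter fun j =>
    (isOpen_lt (continuous_apply j) ((h.sec_body i).continuous_gam.const_mul _)).measurableSet)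

theorem measurableSet_sideSet (h : OrthBody K) (i : Fin 3) : MeasurableSet (sideSet K i) := by
  have hrn : Continuous fun x : Fin 3 → ℝ => (i.removeNth x : Fin 2 → ℝ) :=
    continuous_pi fun j => continuous_apply _
  simp only [sideSet, ofPred_and]
  exact h.measurableSet.inter (((measurableSet_base h i).preimage hrn.measurable).inter
    (isClosed_eq ((h.sec_body i).continuous_gam.comp hrn) h.continuous_gam).measurableSet)

theorem sideSet_ae (h : OrthBody K) (i : Fin 3) :
    (sideCone K i ∩ K : Set (Fin 3 → ℝ)) =ᵐ[volume] sideSet K i := by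
  have h1 : sideCone K i ∩ K ⊆ sideSet K i := fun x ⟨hx, hxK⟩ => by
    refine ⟨hxK, ⟨h.removeNth_mem hxK i, fun j => ?_⟩, hx.2.1⟩
    rw [hx.2.1]
    exact hx.2.2 _
  refine ae_eq_set.2 ⟨by rw [sdiff_eq_empty.2 h1, measure_empty], ?_⟩
  set l : Set (Fin 3 → ℝ) :=
    {x | gam (sec i K) (i.removeNth x) = gam K x ∧ x ∈ topCone K i} with hl
  refine measure_mono_null (t := l) (fun x hx => ?_) ?_
  · obtain ⟨⟨hxK, ⟨-, hu⟩, he⟩, hx2⟩ := hx
    have h0 := h.nonneg x hxK
    have hu' : ∀ j, x (i.succAbove j) < wid K (i.succAbove j) * gam K x := fun j => he ▸ hu j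
    refine ⟨he, h0, le_antisymm ?_ ?_⟩
    · rcases eq_or_ne x 0 with rfl | hx0
      · simp [gam]
      have hg := h.gam_pos hx0
      have := h.wid_le ((h.gam_le h0 hg).1 le_rfl) i
      rwa [Pi.smul_apply, smul_eq_mul, inv_mul_le_iff₀ hg, mul_comm] at this
    · by_contra hc
      refine hx2 ⟨⟨h0, he, fun j => ?_⟩, hxK⟩
      rcases Fin.eq_self_or_eq_succAbove i j with rfl | ⟨q, rfl⟩
      · exact lt_of_not_ge hc
      · exact hu' q
  · set e : (Fin 3 → ℝ) ≃ᵐ ℝ × (Fin 2 → ℝ) := MeasurableEquiv.piFinSuccAbove (fun _ => ℝ) i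
    have hp : MeasurePreserving e.symm (volume : Measure (ℝ × (Fin 2 → ℝ))) volume :=
      (volume_preserving_piFinSuccAbove (fun _ : Fin 3 => ℝ) i).symm
    have hc : ∀ q : ℝ × (Fin 2 → ℝ), e.symm q = ins i q.1 q.2 := fun q => by
      simp [e, MeasurableEquiv.piFinSuccAbove, Fin.insertNthEquiv]
    have hlm : MeasurableSet l :=
      (isClosed_eq ((h.sec_body i).continuous_gam.comp (continuous_pi fun j => continuous_apply _))
        h.continuous_gam).measurableSet.inter (measurableSet_top h i)
    rw [← hp.measure_preimage hlm.nullMeasurableSet, Measure.volume_eq_prod,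
      Measure.prod_apply_symm (e.symm.measurable hlm)]
    refine lintegral_eq_zero_of_ae_eq_zero (Eventually.of_forall fun u => ?_)
    refine Set.Subsingleton.measure_zero ?_ volume
    intro t ht t' ht'
    simp only [mem_preimage, hc] at ht ht'
    obtain ⟨ht1, -, ht2⟩ := ht
    obtain ⟨ht1', -, ht2'⟩ := ht'
    simp only [mem_ofPred_eq, ins, Fin.removeNth_insertNth, Fin.insertNth_apply_same] at ht1 ht1' ht2 ht2'
    rw [ht2, ht2', ← ht1, ← ht1']

end Vale.P254.Min
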