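import Mathlib
import Vale.Agent.P254.Min.Cones

/-! The box is extremal in dimension three. -/

namespace Vale.P254.Min

open MeasureTheory Set Vale.P254.U Filter
open scoped Pointwise Topology

variable {p : ℝ} {K : Set (Fin 3 → ℝ)}

/-- The excess on a fibre of a side cone. -/
noncomputable def fibEx (p : ℝ) (K : Set (Fin 3 → ℝ)) (i : Fin 3) (u : Fin 2 → ℝ) : ℝ :=
  gam (sec i K) u * ell i K ((gam (sec i K) u)⁻¹ • u) * gam (sec i K) u ^ p *
    (gden p i K ((gam (sec i K) u)⁻¹ • u) - (((3 : ℕ) : ℝ) + p))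

theorem base_arc (h : OrthBody K) {i : Fin 3} {u : Fin 2 → ℝ} (hu : u ∈ base K i) :
    0 < gam (sec i K) u ∧ (gam (sec i K) u)⁻¹ • u ∈ arc K i := by
  have hu0 := (h.sec_body i).nonneg u hu.1
  have hg : 0 < gam (sec i K) u := by
    refine (OrthBody.gam_nonneg u).lt_of_ne' fun h0 => ?_
    have := hu.2 0
    rw [h0, mul_zero] at this
    linarith [hu0 0, show (0 : Fin 2 → ℝ) 0 = 0 from rfl]
  refine ⟨hg, ((h.sec_body i).gam_le hu0 hg).1 le_rfl, ?_, fun j => ?_⟩
  · rw [OrthBody.gam_smul (inv_nonneg.2 hg.le), inv_mul_cancel₀ hg.ne']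
  · rw [Pi.smul_apply, smul_eq_mul, inv_mul_lt_iff₀ hg, mul_comm]
    exact hu.2 j

theorem fibre_side (h : OrthBody K) {i : Fin 3} {u : Fin 2 → ℝ} (hu : u ∈ base K i) {t : ℝ} :
    ins i t u ∈ sideSet K i ↔
      t ∈ Icc 0 (gam (sec i K) u * ell i K ((gam (sec i K) u)⁻¹ • u)) := by
  obtain ⟨hg, hy⟩ := base_arc h hu
  have hu0 := (h.sec_body i).nonneg u hu.1
  set g := gam (sec i K) u with hgdef
  have key : g⁻¹ • ins i t u ∈ K ↔ t ∈ Icc 0 (g * ell i K (g⁻¹ • u)) := by
    rw [show g⁻¹ • ins i t u = ins i (g⁻¹ * t) (g⁻¹ • u) from (insertNth_smul i g⁻¹ t u).symm,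
      h.mem_fibre hy.1]
    simp only [mem_Icc, inv_mul_le_iff₀ hg]
    exact and_congr_left' ⟨fun h1 => by nlinarith [inv_pos.2 hg], fun h1 => by positivity⟩
  constructor
  · rintro ⟨hx, -, he⟩
    simp only [ins, Fin.removeNth_insertNth] at he
    refine key.1 ?_
    have := (h.gam_le (h.nonneg _ hx) (t := gam K (ins i t u)) (by simp only [ins]; rwa [← he])).1 le_rfl
    simp only [ins] at this
    rwa [← he] at this
  · intro ht
    have h1 := key.2 ht
    have hx0 : 0 ≤ ins i t u := insertNth_nonneg ht.1 hu0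
    have hge : g ≤ gam K (ins i t u) := by
      have := gam_sec_le h hx0 i
      simpa [← hgdef] using this
    have hle : gam K (ins i t u) ≤ g := (h.gam_le hx0 hg).2 h1
    refine ⟨(h.gam_le_one hx0).1 (hle.trans (((h.sec_body i).gam_le_one hu0).2 hu.1)), ?_, ?_⟩
    · simpa using hu
    · simpa [← hgdef] using le_antisymm hge hle

theorem fibre_integral (h : IsMin p K) {i : Fin 3} {u : Fin 2 → ℝ} (hu : u ∈ base K i) :
    ∫ t, (sideSet K i).indicator (fun x => sden p K x - (((3 : ℕ) : ℝ) + p) * gam K x ^ p)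
      (ins i t u) = fibEx p K i u := by
  have hb := h.body
  obtain ⟨hg, hy⟩ := base_arc hb hu
  have hu0 := (hb.sec_body i).nonneg u hu.1
  set g := gam (sec i K) u with hgdef
  set ℓ := ell i K (g⁻¹ • u) with hℓ
  have hℓ0 : 0 ≤ ℓ := hb.ell_nonneg hy.1
  set A := ∑ j, wt p K (i.succAbove j) * u j ^ p with hA
  set B := wt p K i with hB
  set c : ℝ := ((3 : ℕ) : ℝ) + p with hc
  have e : (fun t => (sideSet K i).indicator
      (fun x => sden p K x - c * gam K x ^ p) (ins i t u))
      = (Icc 0 (g * ℓ)).indicator fun t => (A - c * g ^ p) + B * t ^ p := by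
    funext t
    by_cases ht : ins i t u ∈ sideSet K i
    · rw [indicator_of_mem ht, indicator_of_mem ((fibre_side hb hu).1 ht)]
      have he := ht.2.2
      simp only [ins, Fin.removeNth_insertNth] at he
      simp only [ins, ← he, ← hgdef, sden, Fin.sum_univ_succAbove _ i, Fin.insertNth_apply_same,
        Fin.insertNth_apply_succAbove]
      ring
    · rw [indicator_of_notMem ht, indicator_of_notMem fun hc' => ht ((fibre_side hb hu).2 hc')]
  rw [e, integral_indicator measurableSet_Icc, integral_Icc_eq_integral_Ioc,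
    ← intervalIntegral.integral_of_le (mul_nonneg hg.le hℓ0),
    intervalIntegral.integral_add intervalIntegrable_const
      ((intervalIntegral.intervalIntegrable_rpow (Or.inl h.pos.le)).const_mul _),
    intervalIntegral.integral_const_mul, integral_rpow (Or.inl (by linarith [h.pos])),
    intervalIntegral.integral_const, Real.zero_rpow (by linarith [h.pos])]
  have hsum : A = g ^ p * ∑ j, wt p K (i.succAbove j) * (g⁻¹ • u) j ^ p := by
    rw [hA, Finset.mul_sum]
    refine Finset.sum_congr rfl fun j _ => ?_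
    rw [Pi.smul_apply, smul_eq_mul, Real.mul_rpow (inv_nonneg.2 hg.le) (hu0 j),
      Real.inv_rpow hg.le]
    field_simp
  simp only [fibEx, gden, smul_eq_mul, sub_zero, ← hgdef, ← hℓ, ← hB, ← hc, hsum]
  rcases hℓ0.eq_or_lt with h0 | h0
  · rw [← h0]; simp [Real.zero_rpow h.pos.ne', Real.zero_rpow (show p + 1 ≠ 0 by linarith [h.pos])]
  · rw [Real.rpow_add_one (mul_pos hg h0).ne', Real.mul_rpow hg.le h0.le, add_comm (1 : ℝ) p]
    ring

theorem side_integral (h : IsMin p K) (i : Fin 3) :
    Integrable ((base K i).indicator (fibEx p K i)) ∧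
      Phi p K (sideCone K i) = ∫ u, (base K i).indicator (fibEx p K i) u := by
  have hb := h.body
  set e : (Fin 3 → ℝ) ≃ᵐ ℝ × (Fin 2 → ℝ) := MeasurableEquiv.piFinSuccAbove (fun _ => ℝ) i
  have hp : MeasurePreserving e.symm (volume : Measure (ℝ × (Fin 2 → ℝ))) volume :=
    (volume_preserving_piFinSuccAbove (fun _ : Fin 3 => ℝ) i).symm
  have hc : ∀ q : ℝ × (Fin 2 → ℝ), e.symm q = ins i q.1 q.2 := fun q => by
    simp [e, MeasurableEquiv.piFinSuccAbove, Fin.insertNthEquiv]
  set f : (Fin 3 → ℝ) → ℝ := fun x => sden p K x - (((3 : ℕ) : ℝ) + p) * gam K x ^ p with hf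
  have hfc : Continuous f := (continuous_sden h.pos.le K).sub
    ((hb.continuous_gam.rpow_const fun _ => Or.inr h.pos.le).const_mul _)
  have hi : Integrable ((sideSet K i).indicator f) :=
    (integrable_indicator_iff (measurableSet_sideSet hb i)).2
      ((hb.integrableOn hfc).mono_set fun x hx => hx.1)
  have hi' : Integrable (fun q => (sideSet K i).indicator f (e.symm q))
      ((volume : Measure ℝ).prod (volume : Measure (Fin 2 → ℝ))) :=
    hp.integrable_comp_of_integrable hi
  have hinner : ∀ u, ∫ t, (sideSet K i).indicator f (e.symm (t, u))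
      = (base K i).indicator (fibEx p K i) u := fun u => by
    simp only [hc]
    by_cases hu : u ∈ base K i
    · rw [indicator_of_mem hu]; exact fibre_integral h hu
    · rw [indicator_of_notMem hu]
      refine integral_eq_zero_of_ae (Eventually.of_forall fun t => ?_)
      refine indicator_of_notMem (fun hm => hu ?_) _
      simpa using hm.2.1
  refine ⟨by simpa only [hinner] using hi'.integral_prod_right, ?_⟩
  rw [Phi, setIntegral_congr_set (sideSet_ae hb i),
    ← integral_indicator (measurableSet_sideSet hb i),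
    ← hp.integral_comp e.symm.measurableEmbedding, Measure.volume_eq_prod, integral_prod_symm _ hi']
  simp only [hinner]

theorem fibEx_nonneg (h : IsMin p K) {i : Fin 3} {u : Fin 2 → ℝ} (hu : u ∈ base K i) :
    0 ≤ fibEx p K i u := by
  obtain ⟨hg, hy⟩ := base_arc h.body hu
  exact mul_nonneg (mul_nonneg (mul_nonneg hg.le (h.body.ell_nonneg hy.1))
    (Real.rpow_nonneg hg.le p)) (sub_nonneg.2 (gden_arc_ge h hy))

theorem phi_side_nonneg (h : IsMin p K) (i : Fin 3) : 0 ≤ Phi p K (sideCone K i) := by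
  rw [(side_integral h i).2]
  refine integral_nonneg fun u => ?_
  exact indicator_nonneg (fun u hu => fibEx_nonneg h hu) u

theorem phi_side_zero (h : IsMin p K) (i : Fin 3) : Phi p K (sideCone K i) = 0 := by
  have hb := h.body
  have hK := h.eq_hull (k := 2) (by norm_num)
  set Q : Fin 3 ⊕ Fin 3 → Set (Fin 3 → ℝ) := fun s =>
    Sum.elim (fun j => topCone K j ∩ K) (fun j => sideCone K j ∩ K) s with hQ
  have hm : ∀ s, NullMeasurableSet (Q s) volume := fun s => by
    rcases s with j | j
    · exact ((measurableSet_top hb j).inter hb.measurableSet).nullMeasurableSet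
    · exact ((measurableSet_side hb j).inter hb.measurableSet).nullMeasurableSet
  have hd : Pairwise (Function.onFun (AEDisjoint volume) Q) := by
    rintro (a | a) (b | b) hab
    · exact measure_mono_null (t := topCone K a ∩ topCone K b) (fun x hx => ⟨hx.1.1, hx.2.1⟩)
        (volume_top_inter hb fun e => hab (by rw [e]))
    · refine measure_mono_null (t := (∅ : Set (Fin 3 → ℝ))) (fun x hx => ?_) measure_empty
      exact ((hx.2.1.2.2 a).ne hx.1.1.2).elim
    · refine measure_mono_null (t := (∅ : Set (Fin 3 → ℝ))) (fun x hx => ?_) measure_empty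
      exact ((hx.1.1.2.2 b).ne hx.2.1.2).elim
    · exact measure_mono_null (t := sideCone K a ∩ sideCone K b) (fun x hx => ⟨hx.1.1, hx.2.1⟩)
        (volume_side_inter hb fun e => hab (by rw [e]))
  have hcov : ⋃ s, Q s = ({x : Fin 3 → ℝ | 0 ≤ x}) ∩ K := by
    ext x
    simp only [mem_iUnion]
    constructor
    · rintro ⟨s | s, hx⟩ <;> exact ⟨hb.nonneg x hx.2, hx.2⟩
    · rintro ⟨hx, hxK⟩
      by_cases htop : ∃ j, x j = wid K j * gam K x
      · obtain ⟨j, hj⟩ := htop
        exact ⟨.inl j, ⟨hx, hj⟩, hxK⟩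
      push Not at htop
      rcases eq_or_ne x 0 with rfl | hx0
      · exact absurd (show (0 : Fin 3 → ℝ) 0 = wid K 0 * gam K 0 by simp [gam]) (htop 0)
      obtain ⟨j, hj⟩ := exists_side hb hK hx hx0
      refine ⟨.inr j, ⟨hx, hj, fun l => (lt_of_le_of_ne ?_ (htop l))⟩, hxK⟩
      have hg := hb.gam_pos hx0
      have := hb.wid_le ((hb.gam_le hx hg).1 le_rfl) l
      rwa [Pi.smul_apply, smul_eq_mul, inv_mul_le_iff₀ hg, mul_comm] at this
  have htot := hb.phi_orth h.pos
  rw [Phi, ← hcov, integral_iUnion_ae hm hd (by rw [hcov]; exact h.integrableOn_excess (k := 2) _),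
    tsum_fintype, Fintype.sum_sum_type] at htot
  have h1 : ∀ j, 0 ≤ Phi p K (topCone K j) := fun j => phi_top h j
  have h2 : ∀ j, 0 ≤ Phi p K (sideCone K j) := fun j => phi_side_nonneg h j
  have h3 : ∑ j, Phi p K (topCone K j) + ∑ j, Phi p K (sideCone K j) = 0 := htot
  have h4 := Finset.sum_nonneg fun j (_ : j ∈ Finset.univ) => h1 j
  have h5 := Finset.single_le_sum (f := fun j => Phi p K (sideCone K j))
    (fun j _ => h2 j) (Finset.mem_univ i)
  linarith [h2 i]

/-- The mean density over a fibre is constant on every arc. -/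
theorem gden_arc_eq (h : IsMin p K) {i : Fin 3} {y : Fin 2 → ℝ} (hy : y ∈ arc K i) :
    gden p i K y = ((3 : ℕ) : ℝ) + p := by
  have hb := h.body
  have hK := h.eq_hull (k := 2) (by norm_num)
  refine le_antisymm ?_ (gden_arc_ge h hy)
  by_contra hgt
  rw [not_le] at hgt
  have hy0 := (hb.sec_body i).nonneg y hy.1
  have hypos : ∀ j, 0 < y j := by
    intro j
    refine (hy0 j).lt_of_ne' fun h0 => ?_
    rw [Pi.zero_apply] at h0
    obtain ⟨q, hq⟩ : ∃ q : Fin 2, q ≠ j := exists_ne j
    have := arc_maximal hb hy (hb.single_mem_sec i q) fun l => by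
      rcases eq_or_ne l q with rfl | hl
      · rw [Pi.single_eq_same]; exact (hy.2.2 l).le
      · rw [Pi.single_eq_of_ne hl, show l = j by omega, h0]
    have h1 := congrFun this q
    rw [Pi.single_eq_same] at h1
    exact (hy.2.2 q).ne h1.symm
  set c : ℝ := ((3 : ℕ) : ℝ) + p with hc
  set A : (Fin 2 → ℝ) → ℝ → ℝ := fun z t => (∑ j, wt p K (i.succAbove j) * z j ^ p)
    + wt p K i * t ^ p / (1 + p) with hA
  have hAc : Continuous fun q : (Fin 2 → ℝ) × ℝ => A q.1 ((1 - q.2) * ell i K y) := by
    simp only [hA]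
    exact (continuous_finsetSum _ fun j _ => continuous_const.mul
      (((continuous_apply j).comp continuous_fst).rpow_const fun _ => Or.inr h.pos.le)).add
      ((continuous_const.mul (((continuous_const.sub continuous_snd).mul continuous_const).rpow_const
        fun _ => Or.inr h.pos.le)).div_const _)
  have h0 : c < A y ((1 - 0) * ell i K y) := by simpa [hA, gden] using hgt
  obtain ⟨r, hr, hball⟩ := Metric.eventually_nhds_iff.1
    (continuousAt_const.eventually_lt (hAc.continuousAt (x := (y, 0))) h0)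
  set θ := min (r / 2) (1 / 2) with hθ
  have hθ0 : 0 < θ := lt_min (by linarith) (by norm_num)
  set g₀ : ℝ := 1 / 2
  have hg0 : (0 : ℝ) < g₀ := by norm_num
  have hgy : gam (sec i K) (g₀ • y) = g₀ := by
    rw [OrthBody.gam_smul hg0.le, hy.2.1, mul_one]
  set φ : (Fin 2 → ℝ) → (Fin 2 → ℝ) := fun u => (gam (sec i K) u)⁻¹ • u with hφ
  have hφc : ContinuousAt φ (g₀ • y) :=
    ((hb.sec_body i).continuous_gam.continuousAt.inv₀ (by rw [hgy]; exact hg0.ne')).smul continuousAt_id
  have hφy : φ (g₀ • y) = y := by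
    simp only [hφ]; rw [hgy, inv_smul_smul₀ hg0.ne']
  set N : Set (Fin 2 → ℝ) := {z | dist z y < θ ∧
    ∀ j, z j < (1 - θ) * y j + θ * wid K (i.succAbove j)} with hN
  have hNo : IsOpen N := by
    simp only [hN, ofPred_and, ofPred_forall]
    exact (isOpen_lt (continuous_id.dist continuous_const) continuous_const).inter
      (isOpen_iInter_of_finite fun j => isOpen_lt (continuous_apply j) continuous_const)
  have hyN : y ∈ N := ⟨by rwa [dist_self], fun j => by nlinarith [hy.2.2 j]⟩
  set P : Set (Fin 2 → ℝ) := (univ.pi fun _ => Ioi 0) ∩ {u | gam (sec i K) u < 1} ∩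
    {u | ∀ j, u j < wid K (i.succAbove j) * gam (sec i K) u} with hP
  have hPo : IsOpen P := by
    simp only [hP, ofPred_forall]
    exact ((isOpen_set_pi finite_univ fun _ _ => isOpen_Ioi).inter
      (isOpen_lt (hb.sec_body i).continuous_gam continuous_const)).inter
      (isOpen_iInter_of_finite fun j => isOpen_lt (continuous_apply j)
        ((hb.sec_body i).continuous_gam.const_mul _))
  have hPy : g₀ • y ∈ P := by
    refine ⟨⟨fun j _ => mul_pos hg0 (hypos j), ?_⟩, fun j => ?_⟩
    · show gam (sec i K) (g₀ • y) < 1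
      rw [hgy]; norm_num
    · rw [hgy, Pi.smul_apply, smul_eq_mul, mul_comm (wid K _)]
      exact mul_lt_mul_of_pos_left (hy.2.2 j) hg0
  have hU : ∀ᶠ u in 𝓝 (g₀ • y), u ∈ P ∧ φ u ∈ N :=
    (hPo.eventually_mem hPy).and (hφc.eventually_mem (by rw [hφy]; exact hNo.mem_nhds hyN))
  obtain ⟨U, hUsub, hUo, hUy⟩ := eventually_nhds_iff.1 hU
  have hpos : ∀ u ∈ U, u ∈ base K i ∧ 0 < fibEx p K i u := by
    intro u hu
    obtain ⟨⟨⟨hu0, hu1⟩, hu2⟩, hd, hz⟩ := hUsub u hu
    have hub : u ∈ base K i :=
      ⟨((hb.sec_body i).gam_le_one fun j => (hu0 j (mem_univ j)).le).1 hu1.le, hu2⟩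
    obtain ⟨hg, hya⟩ := base_arc hb hub
    refine ⟨hub, mul_pos (mul_pos (mul_pos hg (ell_pos hb hK hya)) (Real.rpow_pos_of_pos hg p))
      (sub_pos.2 ?_)⟩
    have hl := ell_ge hb hK hy.1 hya.1 hθ0.le ((min_le_right _ _).trans (by norm_num))
      fun j => (hz j).le
    have hq : c < A (φ u) ((1 - θ) * ell i K y) := hball (y := (φ u, θ)) (by
      rw [Prod.dist_eq, Real.dist_eq, sub_zero, abs_of_pos hθ0]
      exact max_lt (hd.trans_le ((min_le_left _ _).trans (by linarith)))
        ((min_le_left _ _).trans_lt (by linarith)))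
    refine hq.trans_le ?_
    simp only [hA, gden, hφ]
    have h1θ : (0 : ℝ) ≤ 1 - θ := by linarith [min_le_right (r / 2) (1 / 2)]
    have hw := (hb.wt_pos h.pos.le i).le
    have hp1 : (0 : ℝ) ≤ 1 + p := by linarith [h.pos]
    have := Real.rpow_le_rpow (mul_nonneg h1θ (hb.ell_nonneg hy.1)) hl h.pos.le
    gcongr
  obtain ⟨hi, he⟩ := side_integral h i
  have hnn : 0 ≤ᵐ[volume] (base K i).indicator (fibEx p K i) :=
    Eventually.of_forall fun u => indicator_nonneg (fun u hu => fibEx_nonneg h hu) u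
  have hzero := (integral_eq_zero_iff_of_nonneg_ae hnn hi).1 (he.symm.trans (phi_side_zero h i))
  have hUnull : volume U = 0 := by
    refine measure_mono_null (fun u hu => ?_) (ae_iff.1 hzero)
    obtain ⟨hub, hp'⟩ := hpos u hu
    show ¬ _
    rw [indicator_of_mem hub]
    exact hp'.ne'
  exact (hUo.measure_pos volume ⟨_, hUy⟩).ne' hUnull

/-- The second arc through a fibre end below the width. -/
theorem arc_relation (h : IsMin p K) {i : Fin 3} {y : Fin 2 → ℝ} (hy : y ∈ arc K i)
    (hl : ell i K y < wid K i) :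
    ∃ j, wt p K i * ell i K y ^ p = wt p K (i.succAbove j) * y j ^ p := by
  have hb := h.body
  have hK := h.eq_hull (k := 2) (by norm_num)
  set t := ell i K y with ht
  have ht0 : 0 < t := ell_pos hb hK hy
  set x := ins i t y with hx
  have hxK : x ∈ K := hb.ell_mem hy.1
  obtain ⟨j, hj⟩ : ∃ j, gam (sec (i.succAbove j) K) ((i.succAbove j).removeNth x) = 1 := by
    by_contra hall
    push Not at hall
    have hlt : ∀ j, gam (sec (i.succAbove j) K) ((i.succAbove j).removeNth x) < 1 := fun j =>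
      (((hb.sec_body _).gam_le_one fun m => hb.nonneg x hxK _).2
        (hb.removeNth_mem hxK _)).lt_of_ne (hall j)
    have hev : ∀ᶠ s in 𝓝 t, ∀ j,
        gam (sec (i.succAbove j) K) ((i.succAbove j).removeNth (ins i s y)) < 1 :=
      eventually_all.2 fun j => (((hb.sec_body _).continuous_gam.comp
        (continuous_pi fun m => continuous_apply _)).comp ((continuous_insertNth i).comp
          (Continuous.prodMk continuous_id continuous_const))).continuousAt.eventually_lt
        continuousAt_const (hlt j)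
    obtain ⟨ε, hε, hball⟩ := Metric.eventually_nhds_iff.1 hev
    have hmem : ins i (t + ε / 2) y ∈ K := by
      refine (mem_iff_sec hb hK i (by linarith) hy.1).2 fun j => ?_
      exact ((hb.sec_body _).gam_le_one fun m => insertNth_nonneg (by linarith)
        ((hb.sec_body i).nonneg y hy.1) _).1 (hball (by
          rw [Real.dist_eq, add_sub_cancel_left, abs_of_pos (half_pos hε)]; linarith) j).le
    have := le_csSup (hb.fibre_bdd i y) hmem
    rw [← ell, ← ht] at this
    linarith
  set l := i.succAbove j with hldef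
  have hxlt : ∀ q, x q < wid K q := fun q => by
    rcases Fin.eq_self_or_eq_succAbove i q with rfl | ⟨m, rfl⟩
    · simpa [hx] using hl
    · simpa [hx] using hy.2.2 m
  have hz : (l.removeNth x : Fin 2 → ℝ) ∈ arc K l :=
    ⟨hb.removeNth_mem hxK l, hj, fun m => hxlt _⟩
  have hxl : x l = y j := by simp [hx, hldef]
  have hell : ell l K (l.removeNth x) = x l := by
    refine le_antisymm ?_ (le_csSup (hb.fibre_bdd l _) ?_)
    · have hmem : ins l (ell l K (l.removeNth x)) (l.removeNth x) ∈ K :=
        hb.ell_mem (hb.removeNth_mem hxK l)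
      have hge : x l ≤ ell l K (l.removeNth x) :=
        le_csSup (hb.fibre_bdd l _) (by
          show ins l (x l) (l.removeNth x) ∈ K
          rw [ins_removeNth]; exact hxK)
      have := arc_maximal hb hy (hb.removeNth_mem hmem i) fun m => by
        have h1 : x ≤ ins l (ell l K (l.removeNth x)) (l.removeNth x) := by
          conv_lhs => rw [← ins_removeNth l x]
          exact insertNth_le hge le_rfl
        simpa [Fin.removeNth, hx] using h1 (i.succAbove m)
      have h2 := congrFun this j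
      simp only [Fin.removeNth, ins] at h2
      rw [hldef, Fin.insertNth_apply_same] at h2
      rw [hxl, hldef]
      exact h2.le
    · show ins l (x l) (l.removeNth x) ∈ K
      rw [ins_removeNth]; exact hxK
  refine ⟨j, ?_⟩
  have e1 := gden_arc_eq h hy
  have e2 := gden_arc_eq h hz
  have s1 : sden p K x = (∑ m, wt p K (i.succAbove m) * y m ^ p) + wt p K i * t ^ p := by
    rw [sden, Fin.sum_univ_succAbove _ i]; simp [hx, add_comm]
  have s2 : sden p K x = (∑ m, wt p K (l.succAbove m) * (l.removeNth x : Fin 2 → ℝ) m ^ p)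
      + wt p K l * x l ^ p := by
    rw [sden, Fin.sum_univ_succAbove _ l]; simp [Fin.removeNth, add_comm]
  simp only [gden, hell, ← ht, hxl] at e1 e2 s2
  have hp := h.pos
  have hp1 : (1 + p) ≠ 0 := by linarith
  have : (p / (1 + p)) * (wt p K i * t ^ p - wt p K l * y j ^ p) = 0 := by
    field_simp
    field_simp at e1 e2
    linear_combination (e2 - e1) + (1 + p) * (s2 - s1)
  have h3 := (mul_eq_zero.1 this).resolve_left (div_ne_zero hp.ne' hp1)
  linarith

/-- A concave boundary meets a strictly concave level curve at most twice. -/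
theorem level_finite (h : IsMin p K) (i : Fin 3) {a₀ a₁ d : ℝ} (ha0 : 0 < a₀) (ha1 : 0 < a₁) :
    {y | y ∈ arc K i ∧ a₀ * y 0 ^ p + a₁ * y 1 ^ p = d}.Finite := by
  have hb := h.body
  by_contra hinf
  set S := {y | y ∈ arc K i ∧ a₀ * y 0 ^ p + a₁ * y 1 ^ p = d} with hS
  have hinj : InjOn (fun y : Fin 2 → ℝ => y 0) S := by
    intro y hy z hz (e : y 0 = z 0)
    rcases le_total (y 1) (z 1) with h1 | h1
    · exact (arc_maximal hb hy.1 hz.1.1 fun j => by fin_cases j <;> simp [e, h1]).symm
    · exact arc_maximal hb hz.1 hy.1.1 fun j => by fin_cases j <;> simp [e, h1]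
  have hR : ((fun y : Fin 2 → ℝ => y 0) '' S).Infinite := (infinite_image_iff hinj).2 hinf
  obtain ⟨T, hT, hTc⟩ := hR.exists_subset_card_eq 3
  set σ := T.orderEmbOfFin hTc with hσ
  have hmem : ∀ k, ∃ y ∈ S, y 0 = σ k := fun k => hT (T.orderEmbOfFin_mem hTc k)
  obtain ⟨u, hu, eu⟩ := hmem 0
  obtain ⟨v, hv, ev⟩ := hmem 1
  obtain ⟨w, hw, ew⟩ := hmem 2
  have huv : u 0 < v 0 := by rw [eu, ev]; exact σ.strictMono (by decide)
  have hvw : v 0 < w 0 := by rw [ev, ew]; exact σ.strictMono (by decide)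
  set a := (w 0 - v 0) / (w 0 - u 0) with ha
  set b := (v 0 - u 0) / (w 0 - u 0) with hb'
  have ha' : 0 < a := div_pos (by linarith) (by linarith)
  have hb0 : 0 < b := div_pos (by linarith) (by linarith)
  have hab : a + b = 1 := by rw [ha, hb', ← add_div, div_eq_one_iff_eq (by linarith)]; ring
  have hmid : a • u + b • w ∈ sec i K := (hb.sec_body i).convex hu.1.1 hw.1.1 ha'.le hb0.le hab
  have h0 : (a • u + b • w) 0 = v 0 := by
    simp only [Pi.add_apply, Pi.smul_apply, smul_eq_mul, ha, hb']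
    have : w 0 - u 0 ≠ 0 := by linarith
    field_simp
    ring
  have h1 : (a • u + b • w) 1 ≤ v 1 := by
    by_contra hc
    have := arc_maximal hb hv.1 hmid fun j => by
      fin_cases j
      · simpa using h0.ge
      · simpa using (lt_of_not_ge hc).le
    rw [this] at hc
    exact hc le_rfl
  have hu0 := (hb.sec_body i).nonneg u hu.1.1
  have hw0 := (hb.sec_body i).nonneg w hw.1.1
  have hs := (Real.strictConcaveOn_rpow h.pos h.lt_one).2 (hu0 0) (hw0 0) (by linarith) ha' hb0 hab
  have hc := (Real.concaveOn_rpow h.pos.le h.lt_one.le).2 (hu0 1) (hw0 1) ha'.le hb0.le hab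
  simp only [Pi.add_apply, Pi.smul_apply, smul_eq_mul] at h0 h1 hs hc
  rw [h0] at hs
  have hm := Real.rpow_le_rpow
    (add_nonneg (mul_nonneg ha'.le (hu0 1)) (mul_nonneg hb0.le (hw0 1))) h1 h.pos.le
  have e1 := hu.2
  have e2 := hv.2
  have e3 := hw.2
  have t1 := mul_lt_mul_of_pos_left hs ha0
  have t2 := mul_le_mul_of_nonneg_left (hc.trans hm) ha1.le
  have t3 : a * (a₀ * u 0 ^ p + a₁ * u 1 ^ p) + b * (a₀ * w 0 ^ p + a₁ * w 1 ^ p) = d := by
    rw [e1, e3, ← add_mul, hab, one_mul]
  linarith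

theorem arc_eq_empty (h : IsMin p K) (i : Fin 3) : arc K i = ∅ := by
  have hb := h.body
  by_contra hne
  obtain ⟨y, hy⟩ := nonempty_iff_ne_empty.2 hne
  have hfin : (arc K i).Finite := by
    have hw := fun j => hb.wt_pos h.pos.le j
    have hp := h.pos
    set c : ℝ := ((3 : ℕ) : ℝ) + p with hc
    refine (((level_finite h i (hw (i.succAbove 0)) (hw (i.succAbove 1))
        (d := c - wt p K i * wid K i ^ p / (1 + p))).union
      (level_finite h i (a₀ := wt p K (i.succAbove 0) * (1 + 1 / (1 + p)))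
        (mul_pos (hw _) (by positivity)) (hw (i.succAbove 1)) (d := c))).union
      (level_finite h i (hw (i.succAbove 0)) (a₁ := wt p K (i.succAbove 1) * (1 + 1 / (1 + p)))
        (mul_pos (hw _) (by positivity)) (d := c))).subset fun z hz => ?_
    have e := gden_arc_eq h hz
    rw [gden, Fin.sum_univ_two] at e
    have hle : ell i K z ≤ wid K i :=
      hb.ell_anti hz.1 le_rfl ((hb.sec_body i).nonneg z hz.1)
    rcases hle.lt_or_eq with hlt | heq
    · obtain ⟨j, hj⟩ := arc_relation h hz hlt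
      fin_cases j
      · refine Or.inl (Or.inr ⟨hz, ?_⟩)
        simp only [Fin.zero_eta] at hj
        rw [hj] at e
        linear_combination e
      · refine Or.inr ⟨hz, ?_⟩
        simp only [Fin.mk_one] at hj
        rw [hj] at e
        linear_combination e
    · refine Or.inl (Or.inl ⟨hz, ?_⟩)
      rw [heq] at e
      linear_combination e
  have hy0 := (hb.sec_body i).nonneg y hy.1
  have hne0 : y 0 ≠ 0 ∨ y 1 ≠ 0 := by
    by_contra hc
    push Not at hc
    exact arc_ne_zero hb hy (funext fun j => by fin_cases j <;> simp [hc])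
  set γ : ℝ → (Fin 2 → ℝ) := fun s => y + fun j => if y j = 0 ∨ j = 1 then s else 0 with hγ
  set φ : ℝ → (Fin 2 → ℝ) := fun s => (gam (sec i K) (γ s))⁻¹ • γ s with hφ
  have hγ0 : γ 0 = y := by funext j; simp [hγ]
  have hγc : Continuous γ := continuous_const.add (continuous_pi fun j => by
    by_cases hj : y j = 0 ∨ j = 1 <;> simp [hj] <;> fun_prop)
  have hφc : ContinuousAt φ 0 :=
    (((hb.sec_body i).continuous_gam.comp hγc).continuousAt.inv₀
      (by simp [hγ0, hy.2.1])).smul hγc.continuousAt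
  have hev : ∀ᶠ s in 𝓝 (0 : ℝ), ∀ j, φ s j < wid K (i.succAbove j) :=
    eventually_all.2 fun j => (continuousAt_pi.1 hφc j).eventually_lt continuousAt_const
      (by simp [hφ, hγ0, hy.2.1, hy.2.2 j])
  obtain ⟨ε, hε, hball⟩ := Metric.eventually_nhds_iff.1 hev
  have hy1 : 0 < y 0 := by
    refine (hy0 0).lt_of_ne' fun h0 => ?_
    rw [Pi.zero_apply] at h0
    have := arc_maximal hb hy (hb.single_mem_sec i 1) fun l => by
      fin_cases l
      · simp [h0]
      · simpa using (hy.2.2 1).le
    have h2 := congrFun this 1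
    rw [Pi.single_eq_same] at h2
    exact (hy.2.2 1).ne h2.symm
  have hmaps : MapsTo φ (Ioo 0 ε) (arc K i) := by
    intro s hs
    have hg0 : 0 ≤ γ s := fun j => by
      simp only [hγ, Pi.add_apply, Pi.zero_apply]
      split_ifs <;> linarith [hy0 j, hs.1, show (0 : Fin 2 → ℝ) j = 0 from rfl]
    have hne : γ s ≠ 0 := fun e => by
      have := congrFun e 1
      simp [hγ] at this
      linarith [hy0 1, hs.1, show (0 : Fin 2 → ℝ) 1 = 0 from rfl]
    have hg := (hb.sec_body i).gam_pos hne
    refine ⟨((hb.sec_body i).gam_le hg0 hg).1 le_rfl, ?_, hball ?_⟩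
    · rw [hφ, OrthBody.gam_smul (inv_nonneg.2 hg.le), inv_mul_cancel₀ hg.ne']
    · rw [Real.dist_eq, sub_zero, abs_of_pos hs.1]; exact hs.2
  have hinj : InjOn φ (Ioo 0 ε) := by
    intro s hs t ht e
    have e0 := congrFun e 0
    have e1 := congrFun e 1
    simp only [hφ, hγ, Pi.smul_apply, Pi.add_apply, smul_eq_mul, hy1.ne', false_or, or_true,
      if_true, show ((0 : Fin 2) = 1) = False by simp, if_false, add_zero] at e0 e1
    have hab := mul_right_cancel₀ hy1.ne' e0
    rw [hab] at e1
    have hpos : (gam (sec i K) (γ t))⁻¹ ≠ 0 := inv_ne_zero fun hz => by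
      have h2 := hmaps ht
      exact arc_ne_zero hb h2 (by simp [hφ, hz])
    have := mul_left_cancel₀ hpos e1
    linarith
  exact (Ioo_infinite hε).image hinj |>.mono (mapsTo_iff_image_subset.1 hmaps) hfin

theorem min_is_box (h : IsMin p K) : K = Icc 0 (wid K) := by
  have hb := h.body
  have hK := h.eq_hull (k := 2) (by norm_num)
  refine Subset.antisymm (fun x hx => ⟨hb.nonneg x hx, fun j => hb.wid_le hx j⟩) fun x hx => ?_
  rw [hK]
  refine ⟨hx.1, fun i => ?_⟩
  set M : Fin 2 → ℝ := fun j => wid K (i.succAbove j) with hM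
  have hM0 : 0 ≤ M := fun j => (hb.wid_pos _).le
  refine (hb.sec_body i).down M ?_ _ (fun j => hx.1 _) fun j => hx.2 _
  by_contra hc
  have hg : 1 < gam (sec i K) M := not_le.1 fun h1 => hc (((hb.sec_body i).gam_le_one hM0).1 h1)
  have hg0 : 0 < gam (sec i K) M := one_pos.trans hg
  have : (gam (sec i K) M)⁻¹ • M ∈ arc K i := by
    refine ⟨((hb.sec_body i).gam_le hM0 hg0).1 le_rfl, ?_, fun j => ?_⟩
    · rw [OrthBody.gam_smul (inv_nonneg.2 hg0.le), inv_mul_cancel₀ hg0.ne']
    · rw [Pi.smul_apply, smul_eq_mul]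
      exact mul_lt_of_lt_one_left (hb.wid_pos _) (inv_lt_one_of_one_lt₀ hg)
  rw [arc_eq_empty h i] at this
  exact this.elim

theorem Hp_box {a : Fin 3 → ℝ} (ha : ∀ i, 0 < a i) (hp : 0 ≤ p) :
    Hp p (Icc (0 : Fin 3 → ℝ) a) = 3 * Real.log (1 + p) := by
  have h1 : OrthBody (Icc (0 : Fin 3 → ℝ) 1) := OrthBody.box_body fun _ => one_pos
  have e : dil a '' Icc (0 : Fin 3 → ℝ) 1 = Icc 0 a := by
    ext y
    constructor
    · rintro ⟨x, hx, rfl⟩
      exact ⟨fun i => mul_nonneg (ha i).le (hx.1 i),
        fun i => mul_le_of_le_one_right (ha i).le (hx.2 i)⟩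
    · intro hy
      refine ⟨fun i => y i / a i, ⟨fun i => div_nonneg (hy.1 i) (ha i).le,
        fun i => (div_le_one (ha i)).2 (hy.2 i)⟩, funext fun i => ?_⟩
      show a i * (y i / a i) = y i
      rw [mul_div_cancel₀ _ (ha i).ne']
  rw [← e, Hp_dil h1 hp ha]
  have hV : volume.real (Icc (0 : Fin 3 → ℝ) 1) = 1 := by
    rw [measureReal_def, ← pi_univ_Icc, volume_pi_pi]; simp
  have he : ∀ j, emom p (Icc (0 : Fin 3 → ℝ) 1) j = 1 / (1 + p) := fun j => by
    rw [emom, ← pi_univ_Icc, volume_pi, Measure.restrict_pi_pi,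
      show (fun x : Fin 3 → ℝ => x j ^ p) = fun x => ∏ i, (if i = j then x i ^ p else 1) by
        funext x; simp,
      integral_fintype_prod_eq_prod (fun i t => if i = j then t ^ p else (1 : ℝ)),
      Finset.prod_eq_single j (fun i _ hi => by simp [hi]) (by simp)]
    simp only [if_true, Pi.zero_apply, Pi.one_apply]
    rw [integral_Icc_eq_integral_Ioc, ← intervalIntegral.integral_of_le zero_le_one,
      integral_rpow (Or.inl (by linarith)), Real.one_rpow, Real.zero_rpow (by linarith)]
    simp [add_comm]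
  simp only [Hp, hV, he, Real.log_one, mul_zero, one_div, Real.log_inv, zero_sub,
    Finset.sum_neg_distrib, Finset.sum_const, Finset.card_univ, Fintype.card_fin, neg_neg]
  simp

/-- The cube is extremal for every moment of order below one. -/
theorem Hp_ge (h : OrthBody K) (hp : 0 < p) (hp1 : p < 1) : 3 * Real.log (1 + p) ≤ Hp p K := by
  obtain ⟨L, hL, hle⟩ := exists_min hp hp1 h
  have e := min_is_box hL
  rw [e, Hp_box (fun i => hL.body.wid_pos i) hp.le] at hle
  exact hle

end Vale.P254.Min
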