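import Mathlib
import Vale.Agent.P254.U.Unconditional
import Vale.Agent.P254.Min.Three

/-! The strong isotropic constant conjecture for unconditional bodies in dimension three. -/

namespace Vale.P254.U

open MeasureTheory Set Filter Matrix
open scoped Topology

variable {n : ℕ}

/-- The cube inequality for the first moments. -/
def CubeLow (n : ℕ) : Prop :=
  ∀ P : Set (Fin n → ℝ), OrthBody P → n * Real.log 2 ≤ gfun P

/-- The limit `p → 1`. -/
theorem cubeLow_three : CubeLow 3 := by
  intro P hP
  obtain ⟨δ, R, hδ, hδR, -, hout⟩ := hP.exists_boxes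
  set q : ℕ → ℝ := fun k => 1 - 1 / ((k : ℝ) + 2) with hq
  have hq0 : ∀ k, 0 < q k ∧ q k < 1 := fun k => by
    have h1 : (0 : ℝ) < 1 / ((k : ℝ) + 2) := by positivity
    have h2 : 1 / ((k : ℝ) + 2) < 1 := by
      rw [div_lt_one (by positivity)]; linarith [Nat.cast_nonneg (α := ℝ) k]
    exact ⟨by simp only [hq]; linarith, by simp only [hq]; linarith⟩
  have hql : Tendsto q atTop (𝓝 1) := by
    have h2 : Tendsto (fun k : ℕ => (1 : ℝ) / (k + 2)) atTop (𝓝 0) := by
      refine squeeze_zero (fun k => by positivity) (fun k => ?_)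
        tendsto_one_div_add_atTop_nhds_zero_nat
      gcongr; linarith
    simpa [hq] using h2.const_sub 1
  have he : ∀ j, Tendsto (fun k => Min.emom (q k) P j) atTop (𝓝 (fmom P j)) := by
    intro j
    refine tendsto_integral_of_dominated_convergence (fun _ => R + 1)
      (fun k => (Min.continuous_rpow_coord (hq0 k).1.le j).aestronglyMeasurable)
      (integrableOn_const hP.compact.measure_lt_top.ne)
      (fun k => ae_restrict_of_forall_mem hP.measurableSet fun x hx => ?_)
      (ae_restrict_of_forall_mem hP.measurableSet fun x hx => ?_)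
    · rw [Real.norm_eq_abs, abs_of_nonneg (Real.rpow_nonneg (hP.nonneg x hx j) _)]
      rcases le_total (x j) 1 with h1 | h1
      · exact (Real.rpow_le_one (hP.nonneg x hx j) h1 (hq0 k).1.le).trans (by linarith)
      · exact ((Real.rpow_le_rpow_of_exponent_le h1 (hq0 k).2.le).trans_eq (Real.rpow_one _)).trans
          (((hout hx).2 j).trans (by linarith))
    · have hc : ContinuousAt (fun s : ℝ => x j ^ s) 1 := Real.continuousAt_const_rpow' one_ne_zero
      simpa [Function.comp_def] using hc.tendsto.comp hql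
  have hl : Tendsto (fun k => Min.Hp (q k) P) atTop (𝓝 (gfun P)) := by
    simp only [Min.Hp, gfun]
    exact ((tendsto_const_nhds.add hql).mul_const _).sub
      (tendsto_finsetSum _ fun j _ => (he j).log (hP.fmom_pos j).ne')
  have hr : Tendsto (fun k => 3 * Real.log (1 + q k)) atTop (𝓝 (3 * Real.log 2)) := by
    have h2 : Tendsto (fun k => 1 + q k) atTop (𝓝 2) := by
      have := hql.const_add 1; norm_num at this; exact this
    exact (h2.log two_ne_zero).const_mul 3
  exact le_of_tendsto_of_tendsto hr hl
    (Eventually.of_forall fun k => Min.Hp_ge hP (hq0 k).1 (hq0 k).2)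

namespace UncBody

/-- The cube is extremal for the product of the first absolute moments. -/
theorem prod_moment_le_of {K : Set (Fin n → ℝ)} (h : UncBody K) (hint : (interior K).Nonempty)
    (hG : CubeLow n) :
    4 ^ n * ∏ i, (∫ x in K, |x i|) ≤ volume.real K ^ (n + 1) := by
  set P := K ∩ Ici 0 with hP
  have hb := h.orthBody hint
  have hV : volume.real K = 2 ^ n * volume.real P := by
    have := h.integral_orth (g := fun _ => 1) continuous_const fun _ _ => rfl
    simpa using this
  have hM : ∀ i, ∫ x in K, |x i| = 2 ^ n * fmom P i := fun i => by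
    rw [h.integral_orth (by fun_prop) fun j x => by
      rcases eq_or_ne i j with rfl | hij <;> simp [*]]
    congr 1
    exact setIntegral_congr_fun hb.measurableSet fun x hx => abs_of_nonneg (hx.2 i)
  have hg := hG P hb
  have hVP := hb.volume_pos
  have hmp := hb.fmom_pos
  have hkey : (2 : ℝ) ^ n * ∏ i, fmom P i ≤ volume.real P ^ (n + 1) := by
    have h0 : 0 < ∏ i, fmom P i := Finset.prod_pos fun i _ => hmp i
    rw [← Real.log_le_log_iff (by positivity) (by positivity),
      Real.log_mul (by positivity) h0.ne', Real.log_pow, Real.log_pow,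
      Real.log_prod fun i _ => (hmp i).ne']
    simp only [gfun] at hg
    push_cast
    linarith
  simp only [hM, hV, Finset.prod_mul_distrib, Finset.prod_const, Finset.card_univ, Fintype.card_fin]
  calc (4 : ℝ) ^ n * ((2 ^ n) ^ n * ∏ i, fmom P i)
      = 2 ^ n * (2 ^ n) ^ n * (2 ^ n * ∏ i, fmom P i) := by
        rw [show (4 : ℝ) ^ n = 2 ^ n * 2 ^ n by rw [← mul_pow]; norm_num]; ring
    _ ≤ 2 ^ n * (2 ^ n) ^ n * volume.real P ^ (n + 1) :=
        mul_le_mul_of_nonneg_left hkey (by positivity)
    _ = _ := by rw [mul_pow (2 ^ n : ℝ), pow_succ (2 ^ n : ℝ)]; ring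

/-- The ratio bound. -/
theorem ratio_le_of {K : Set (Fin n → ℝ)} (h : UncBody K) (hint : (interior K).Nonempty)
    (hG : CubeLow n) :
    0 ≤ (covMat K).det / volume.real K ^ 2 ∧
      (covMat K).det / volume.real K ^ 2 ≤ (((n : ℝ) + 1) / (8 * (n + 2))) ^ n := by
  have hV : 0 < volume.real K :=
    ENNReal.toReal_pos (Measure.measure_pos_of_nonempty_interior _ hint).ne'
      h.compact.measure_lt_top.ne
  have hodd : ∀ (i : Fin n) (g : (Fin n → ℝ) → ℝ),
      (∀ x, g (Function.update x i (-x i)) = -g x) → ∫ x in K, g x = 0 := by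
    intro i g hg
    set T := fun (x : Fin n → ℝ) (j : Fin n) => if j = i then -x j else x j with hT
    have hTm : MeasurePreserving T volume volume := by
      refine volume_preserving_pi (f := fun j t => if j = i then -t else t) fun j => ?_
      by_cases hj : j = i
      · simp only [hj, if_true]; exact Measure.measurePreserving_neg volume
      · simp only [hj, if_false]; exact MeasurePreserving.id volume
    have hTu : ∀ x, T x = Function.update x i (-x i) := fun x => by
      funext j; by_cases hj : j = i <;> simp [hT, hj]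
    have hinv : Function.Involutive T := fun x => by
      funext j; by_cases hj : j = i <;> simp [hT, hj]
    let Te : (Fin n → ℝ) ≃ᵐ (Fin n → ℝ) :=
      ⟨hinv.toPerm T, hTm.measurable, hTm.measurable⟩
    have hTK : T ⁻¹' K = K := by
      ext x
      rw [mem_preimage]
      refine ⟨fun hx => ?_, fun hx => by rw [hTu]; exact h.flip i x hx⟩
      have := h.flip i _ hx
      rwa [← hTu, hinv x] at this
    have h' := hTm.setIntegral_preimage_emb Te.measurableEmbedding g K
    rw [hTK] at h'
    simp only [hTu, hg, integral_neg] at h'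
    linarith
  have hcen : ∀ i, centroid K i = 0 := fun i => by
    rw [centroid, hodd i _ fun x => by simp, zero_div]
  set q : Fin n → ℝ := fun i => (∫ x in K, x i ^ 2) / volume.real K with hq
  have hcov : covMat K = Matrix.diagonal q := by
    ext i j
    simp only [covMat, Matrix.of_apply, hcen, sub_zero]
    rcases eq_or_ne i j with rfl | hij
    · simp [q, sq]
    · rw [Matrix.diagonal_apply_ne _ hij, hodd i _ fun x => by simp [hij.symm], zero_div]
  have hq0 : ∀ i, 0 ≤ q i := fun i => div_nonneg
    (setIntegral_nonneg h.compact.measurableSet fun x _ => sq_nonneg _) measureReal_nonneg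
  rw [hcov, Matrix.det_diagonal]
  refine ⟨div_nonneg (Finset.prod_nonneg fun i _ => hq0 i) (sq_nonneg _), ?_⟩
  set V := volume.real K with hVdef
  obtain ⟨c, hc⟩ : ∃ c : ℝ, c = 2 * (n + 1) / ((n : ℝ) + 2) := ⟨_, rfl⟩
  have hc0 : 0 ≤ c := by rw [hc]; positivity
  have hle : ∀ i, q i ≤ c * (∫ x in K, |x i|) ^ 2 / V ^ 2 := fun i => by
    have h1 := h.mom_two_le i
    rw [hq, hc, div_mul_eq_mul_div, div_div, div_le_div_iff₀ hV (by positivity)]
    calc (∫ x in K, x i ^ 2) * (((n : ℝ) + 2) * V ^ 2)
        = V * (∫ x in K, x i ^ 2) * (n + 2) * V := by ring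
      _ ≤ _ := mul_le_mul_of_nonneg_right h1 hV.le
  have hm0 : ∀ i, 0 ≤ ∫ x in K, |x i| := fun i =>
    setIntegral_nonneg h.compact.measurableSet fun x _ => abs_nonneg _
  refine (div_le_div_of_nonneg_right (Finset.prod_le_prod (fun i _ => hq0 i) fun i _ => hle i)
    (sq_nonneg _)).trans ?_
  have h2 := pow_le_pow_left₀ (mul_nonneg (by positivity) (Finset.prod_nonneg fun i _ => hm0 i))
    (h.prod_moment_le_of hint hG) 2
  rw [Finset.prod_div_distrib, Finset.prod_mul_distrib, Finset.prod_pow, Finset.prod_const,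
    Finset.prod_const, Finset.card_univ, Fintype.card_fin]
  rw [show ((n : ℝ) + 1) / (8 * (n + 2)) = c / 16 by rw [hc]; field_simp; ring, div_pow,
    div_div, div_le_div_iff₀ (by positivity) (by positivity)]
  calc c ^ n * (∏ i, ∫ x in K, |x i|) ^ 2 * 16 ^ n
      = c ^ n * (4 ^ n * ∏ i, ∫ x in K, |x i|) ^ 2 := by
        rw [show (16 : ℝ) ^ n = (4 ^ n) ^ 2 by rw [← pow_mul, mul_comm n 2, pow_mul]; norm_num]
        ring
    _ ≤ c ^ n * (V ^ (n + 1)) ^ 2 := mul_le_mul_of_nonneg_left h2 (by positivity)
    _ = _ := by ring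

end UncBody

/-- Unconditional bodies in dimension three. -/
theorem unconditional_three {K : Set (Fin 3 → ℝ)} (hKc : IsCompact K) (hKv : Convex ℝ K)
    (hflip : ∀ i, ∀ x ∈ K, Function.update x i (-x i) ∈ K) (hint : (interior K).Nonempty)
    (A : (Fin 3 → ℝ) ≃ᵃ[ℝ] (Fin 3 → ℝ)) (p : Fin (3 + 1) → Fin 3 → ℝ)
    (hp : AffineIndependent ℝ p) :
    isoConst (A '' K) < isoConst (convexHull ℝ (Set.range p)) := by
  have h : UncBody K := ⟨hKc, hKv, hflip⟩
  have hV : 0 < volume.real K :=
    ENNReal.toReal_pos (Measure.measure_pos_of_nonempty_interior _ hint).ne' hKc.measure_lt_top.ne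
  obtain ⟨h0, hle⟩ := h.ratio_le_of hint cubeLow_three
  rw [affine_isoConst A hKc hV, simplex_isoConst p hp, isoConst]
  exact Real.rpow_lt_rpow h0 (hle.trans_lt (bound_lt_simplex (by norm_num))) (by positivity)

end Vale.P254.U
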